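import Vale.Agent.N143X.Pick
import Vale.Agent.N143.Good

/-!
Weak convergence of strongly Rayleigh measures to a limit with homogeneous drift implies
convergence of the drifts, and convergence in probability of the configurations.
-/

namespace Vale.Agent.N143X

open Filter Topology MeasureTheory Vale.Agent.N143 Vale.Agent.P143 Vale.Agent.P143.H536
open Vale.Agent.P143.H71 (qq LB dft prior_qq cut)

variable {X : Type*}

theorem sum_qq_real (μ : Measure (X → Bool)) [IsProbabilityMeasure μ] (F : Finset X)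
    (Ψ : Finset X → ℝ) :
    ∑ T ∈ F.powerset, qq μ F T * Ψ T = ∫ ω, Ψ (F.filter fun f => ω f = true) ∂μ := by
  have h := sum_qq_eq μ F fun T => (Ψ T : ℂ)
  rw [integral_complex_ofReal] at h
  exact_mod_cast h

theorem upr_eq_integral [DecidableEq X] (μ : Measure (X → Bool)) [IsProbabilityMeasure μ]
    {F : Finset X} {e : X} (he : e ∈ F) (u : X → ℝ) :
    upr F.powerset (qq μ F) u e =
      (∫ ω, (if ω e = true then 1 else 0) * ∏ f ∈ F, (if ω f = true then u f else 1) ∂μ) /
        ∫ ω, ∏ f ∈ F, (if ω f = true then u f else 1) ∂μ := by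
  unfold upr
  rw [Finset.sum_filter, sum_qq_real μ F fun T => ∏ j ∈ T, u j]
  have h1 : ∀ T ∈ F.powerset, (if e ∈ T then qq μ F T * ∏ j ∈ T, u j else 0) =
      qq μ F T * ((if e ∈ T then 1 else 0) * ∏ j ∈ T, u j) := fun T _ => by
    split_ifs <;> simp
  rw [Finset.sum_congr rfl h1,
    sum_qq_real μ F fun T => (if e ∈ T then 1 else 0) * ∏ j ∈ T, u j]
  simp only [Finset.prod_filter, Finset.mem_filter, he, true_and]

theorem upr_subset [DecidableEq X] (μ : Measure (X → Bool)) [IsProbabilityMeasure μ]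
    {F G : Finset X} (hFG : F ⊆ G) {e : X} (he : e ∈ F) (u : X → ℝ) :
    upr G.powerset (qq μ G) (cut F u) e = upr F.powerset (qq μ F) u e := by
  have h1 : ∀ ω : X → Bool, ∏ f ∈ G, (if ω f = true then cut F u f else 1) =
      ∏ f ∈ F, (if ω f = true then u f else 1) := by
    intro ω
    rw [← Finset.prod_subset hFG fun f _ hf => by simp [cut, hf]]
    exact Finset.prod_congr rfl fun f hf => by simp [cut, hf]
  rw [upr_eq_integral μ (hFG he), upr_eq_integral μ he]
  simp only [h1]

variable {μ : Measure (X → Bool)}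

theorem gs_ne (h : IsStronglyRayleigh μ) (F : Finset X) (z : X → ℂ)
    (hz : ∀ f ∈ F, 0 < (z f).im) : gs (qq μ F) F z ≠ 0 := by
  have := h.1
  rw [← genPoly_eq]
  exact h.2 F z hz

/-- the drift is squeezed between two finite-volume tilted marginals -/
theorem dft_sandwich [DecidableEq X] (h : IsStronglyRayleigh μ) {K : ℝ} {w : X → ℝ}
    (hw : LB K w) {F : Finset X} {e : X} (he : e ∈ F) :
    upr F.powerset (qq μ F) (fun f => Real.exp (-K) * w f) e ≤ dft μ w e ∧
      dft μ w e ≤ upr F.powerset (qq μ F) (fun f => Real.exp K * w f) e := by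
  have := h.1
  have hK : 0 ≤ K := (abs_nonneg _).trans (hw e).2
  have hlim := h.isHurwitz.tendsto_dft hw e
  have hq : ∀ G : Finset X, ∀ T ∈ G.powerset, 0 ≤ qq μ G T := fun G T _ => H71.qq_nonneg μ G T
  have hex : ∀ a : ℝ, (fun f => (if f ∈ F then w f else Real.exp a) / Real.exp a) =
      cut F fun f => Real.exp (-a) * w f := by
    intro a
    funext f
    unfold cut
    split_ifs
    · rw [Real.exp_neg, div_eq_inv_mul]
    · exact div_self (Real.exp_pos a).ne'
  constructor
  · refine ge_of_tendsto hlim ?_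
    filter_upwards [eventually_ge_atTop F] with G hG
    have h1 := upr_cmp (hq G) (gs_ne h G) e (w := w)
      (w' := fun f => if f ∈ F then w f else Real.exp K) (σ := 1) (σ' := Real.exp K) one_pos
      (Real.one_le_exp hK) hw.pos (fun f _ => by
        split_ifs
        · exact le_rfl
        · exact hw.le_exp f) (if_pos he)
    rw [hex, upr_subset μ hG he] at h1
    simpa using h1
  · refine le_of_tendsto hlim ?_
    filter_upwards [eventually_ge_atTop F] with G hG
    have h1 := upr_cmp (hq G) (gs_ne h G) e (w' := w)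
      (w := fun f => if f ∈ F then w f else Real.exp (-K)) (σ' := 1) (σ := Real.exp (-K))
      (Real.exp_pos _) (Real.exp_le_one_iff.2 (by linarith)) (fun f => by
        split_ifs
        · exact hw.pos f
        · exact Real.exp_pos _) (fun f _ => by
        split_ifs
        · exact le_rfl
        · exact hw.exp_le f) (if_pos he).symm
    rw [hex, upr_subset μ hG he, neg_neg] at h1
    simpa using h1

theorem LB_mul {K a : ℝ} {w : X → ℝ} (hw : LB K w) : LB (K + |a|) fun f => Real.exp a * w f :=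
  fun f => ⟨mul_pos (Real.exp_pos a) (hw.pos f), by
    rw [Real.log_mul (Real.exp_pos a).ne' (hw.pos f).ne', Real.log_exp, add_comm]
    exact (abs_add_le _ _).trans (add_le_add (hw f).2 le_rfl)⟩

/-- the drift does not change under a uniform tilt -/
def Homog (μ : Measure (X → Bool)) : Prop :=
  ∀ (K a : ℝ) (w : X → ℝ), LB K w → ∀ e, dft μ (fun f => Real.exp a * w f) e = dft μ w e

theorem tendsto_upr [DecidableEq X] [IsProbabilityMeasure μ] {ν : ℕ → Measure (X → Bool)}
    (hq : ∀ F T, Tendsto (fun n => qq (ν n) F T) atTop (𝓝 (qq μ F T))) {w : X → ℝ}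
    {wn : ℕ → X → ℝ} (hw : ∀ f, 0 < w f)
    (hlim : ∀ f, Tendsto (fun n => wn n f) atTop (𝓝 (w f))) (F : Finset X) (e : X) :
    Tendsto (fun n => upr F.powerset (qq (ν n) F) (wn n) e) atTop
      (𝓝 (upr F.powerset (qq μ F) w e)) := by
  unfold upr
  refine Tendsto.div ?_ ?_ (sum_qprod_pos (prior_qq μ F) hw).ne'
  · exact tendsto_finsetSum _ fun T _ => (hq F T).mul (tendsto_finsetProd _ fun j _ => hlim j)
  · exact tendsto_finsetSum _ fun T _ => (hq F T).mul (tendsto_finsetProd _ fun j _ => hlim j)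

theorem convDriftB_of_weak (hμ : IsStronglyRayleigh μ) (hh : Homog μ)
    {ν : ℕ → Measure (X → Bool)} (hν : ∀ n, IsStronglyRayleigh (ν n))
    (hq : ∀ F T, Tendsto (fun n => qq (ν n) F T) atTop (𝓝 (qq μ F T))) :
    ConvDriftB (fun n => dft (ν n)) (dft μ) := by
  classical
  have := hμ.1
  intro w wn K hw hwn hwK hwnK hlim e
  have hLB : LB K w := fun f => ⟨hw f, hwK f⟩
  have h1 : ∀ a : ℝ, Tendsto (fun F : Finset X =>
      upr F.powerset (qq μ F) (fun f => Real.exp a * w f) e) atTop (𝓝 (dft μ w e)) := by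
    intro a
    rw [← hh K a w hLB e]
    exact hμ.isHurwitz.tendsto_dft (LB_mul hLB) e
  have h2 : ∀ (a : ℝ) (F : Finset X), Tendsto (fun n =>
      upr F.powerset (qq (ν n) F) (fun f => Real.exp a * wn n f) e) atTop
      (𝓝 (upr F.powerset (qq μ F) (fun f => Real.exp a * w f) e)) := fun a F =>
    tendsto_upr hq (fun f => mul_pos (Real.exp_pos a) (hw f))
      (fun f => (hlim f).const_mul _) F e
  refine tendsto_order.2 ⟨fun b hb => ?_, fun b hb => ?_⟩
  · obtain ⟨F, hF1, hF2⟩ := (((h1 (-K)).eventually_const_lt hb).and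
      (eventually_ge_atTop {e})).exists
    filter_upwards [(h2 (-K) F).eventually_const_lt hF1] with n hn
    exact hn.trans_le (dft_sandwich (hν n) (fun f => ⟨hwn n f, hwnK n f⟩)
      (hF2 (Finset.mem_singleton_self e))).1
  · obtain ⟨F, hF1, hF2⟩ := (((h1 K).eventually_lt_const hb).and
      (eventually_ge_atTop {e})).exists
    filter_upwards [(h2 K F).eventually_lt_const hF1] with n hn
    exact (dft_sandwich (hν n) (fun f => ⟨hwn n f, hwnK n f⟩)
      (hF2 (Finset.mem_singleton_self e))).2.trans_lt hn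

theorem tendsto_qq [IsProbabilityMeasure μ] {ν : ℕ → Measure (X → Bool)}
    (h : ∀ f : C(X → Bool, ℝ), Tendsto (fun n => ∫ ω, f ω ∂ν n) atTop (𝓝 (∫ ω, f ω ∂μ)))
    (F T : Finset X) : Tendsto (fun n => qq (ν n) F T) atTop (𝓝 (qq μ F T)) := by
  classical
  have hcl : IsClopen {ω : X → Bool | ∀ f ∈ F, (ω f = true ↔ f ∈ T)} := by
    have h1 : {ω : X → Bool | ∀ f ∈ F, (ω f = true ↔ f ∈ T)} =
        ⋂ f ∈ F, (fun ω : X → Bool => ω f) ⁻¹' {b | b = true ↔ f ∈ T} := by
      ext ω
      simp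
    rw [h1]
    exact isClopen_biInter_finset fun f _ => (isClopen_discrete _).preimage (continuous_apply f)
  have h1 := h ⟨_, hcl.continuous_indicator (f := fun _ => (1 : ℝ)) continuous_const⟩
  simp only [ContinuousMap.coe_mk, integral_indicator_const _ (measurableSet_cyl' F T),
    smul_eq_mul, mul_one] at h1
  exact h1

/-- if the trajectory avoids the middle from time `M` on, its fate is decided at time `M` -/
theorem mem_limitSet_iff {a : (X → ℝ) → X → ℝ} (ha : IsDrift a) {z : X → ℝ} {e : X} {M : ℕ}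
    (hM : 6 ≤ M) (h : ∀ N : ℕ, M ≤ N → ¬ |flow a N z e / N - 1 / 2| ≤ 1 / 8) :
    (e ∈ limitSet a z ∧ 5 / 8 * (M : ℝ) < flow a M z e) ∨
      (e ∉ limitSet a z ∧ flow a M z e < 3 / 8 * (M : ℝ)) := by
  have hdi : ∀ N : ℕ, M ≤ N → 5 / 8 * (N : ℝ) < flow a N z e ∨ flow a N z e < 3 / 8 * (N : ℝ) := by
    intro N hN
    have hNpos : (0 : ℝ) < N := by exact_mod_cast (by omega : 0 < N)
    have h' := h N hN
    rw [not_le, lt_abs] at h'
    rcases h' with h' | h'
    · left
      have : 5 / 8 < flow a N z e / N := by linarith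
      rwa [lt_div_iff₀ hNpos] at this
    · right
      have : flow a N z e / N < 3 / 8 := by linarith
      rwa [div_lt_iff₀ hNpos] at this
  rcases hdi M le_rfl with h1 | h1
  · refine Or.inl ⟨eventually_atTop.2 ⟨M, fun N hN => ?_⟩, h1⟩
    have h2 : 5 / 8 * (N : ℝ) < flow a N z e := by
      induction N, hN using Nat.le_induction with
      | base => exact h1
      | succ N hN ih =>
        refine (hdi (N + 1) (by omega)).resolve_right fun h3 => ?_
        have h4 := (abs_le.1 (flow_succ_sub a ha N z e)).1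
        have h5 : (6 : ℝ) ≤ N := by exact_mod_cast hM.trans hN
        push_cast at h3
        linarith
    have : (0 : ℝ) ≤ N := Nat.cast_nonneg N
    linarith
  · refine Or.inr ⟨fun hmem => ?_, h1⟩
    have h2 : ∀ N : ℕ, M ≤ N → flow a N z e < 3 / 8 * (N : ℝ) := by
      intro N hN
      induction N, hN using Nat.le_induction with
      | base => exact h1
      | succ N hN ih =>
        refine (hdi (N + 1) (by omega)).resolve_left fun h3 => ?_
        have h4 := (abs_le.1 (flow_succ_sub a ha N z e)).2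
        have h5 : (6 : ℝ) ≤ N := by exact_mod_cast hM.trans hN
        push_cast at h3
        linarith
    have hmem' : ∀ᶠ N : ℕ in atTop, (N : ℝ) / 2 ≤ flow a N z e := hmem
    obtain ⟨N, h3, h4⟩ := (hmem'.and (eventually_ge_atTop M)).exists
    have h5 := h2 N h4
    have : (0 : ℝ) ≤ N := Nat.cast_nonneg N
    linarith

section

variable [Countable X] {Ω : Type*} [MeasurableSpace Ω] (P : Measure Ω) [IsProbabilityMeasure P]
  {Z : Ω → X → ℝ} (hZ : Measurable Z)
  (hlaw : P.map Z = Measure.infinitePi fun _ : X => logistic)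

include hZ hlaw in
theorem middle (h : IsHurwitz μ) (e : X) (N : ℕ) :
    P {ω | |flow (dft μ) N (Z ω) e / N - 1 / 2| ≤ 1 / 8} ≤
      ENNReal.ofReal (2 * Real.exp (-((N : ℝ) / 4))) := by
  classical
  have := h.1
  obtain ⟨F, hF, hFE⟩ := H71.exists_exhaustion_finset (E := X)
  rw [← ofReal_measureReal]
  refine ENNReal.ofReal_le_ofReal (H536.prob_middle P Set.univ F hF
    (fun e => ⟨fun _ => hFE e, fun _ => Set.mem_univ e⟩)
    (fun n => (F n).powerset) (fun n => qq μ (F n)) (fun n => prior_qq μ (F n))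
    (fun n T hT => Finset.mem_powerset.1 hT) (dft μ) h.isDrift_dft h.good.meas
    (fun n => h.drift (F n)) (h.convDriftB F hF hFE) Z hZ (fun S _ => ?_) e (Set.mem_univ e) N)
  rw [← Measure.infinitePi_map_restrict (μ := fun _ : X => logistic), ← hlaw,
    Measure.map_map (Finset.measurable_restrict S) hZ]
  rfl

include hZ hlaw in
/-- convergence of the drifts implies convergence in probability of the configurations -/
theorem tendsto_ne (h : IsHurwitz μ) {ν : ℕ → Measure (X → Bool)} (hν : ∀ n, IsHurwitz (ν n))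
    (hc : ConvDriftB (fun n => dft (ν n)) (dft μ)) (e : X) :
    Tendsto (fun n => P {ω | conf (dft (ν n)) (Z ω) e ≠ conf (dft μ) (Z ω) e}) atTop (𝓝 0) := by
  classical
  set τ : ℕ → ENNReal := fun M => ∑' k : ℕ,
    ENNReal.ofReal (2 * Real.exp (-(((k + M : ℕ) : ℝ) / 4))) with hτ
  have hτ0 : Tendsto τ atTop (𝓝 0) :=
    ENNReal.tendsto_sum_nat_add (fun N : ℕ => ENNReal.ofReal (2 * Real.exp (-((N : ℝ) / 4))))
      Lim.summable_tail.tsum_ofReal_ne_top
  have hbad : ∀ ρ : Measure (X → Bool), IsHurwitz ρ → ∀ M : ℕ, P (⋃ k : ℕ,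
      {ω | |flow (dft ρ) (k + M) (Z ω) e / (k + M : ℕ) - 1 / 2| ≤ 1 / 8}) ≤ τ M :=
    fun ρ hρ M => (measure_iUnion_le _).trans
      (ENNReal.tsum_le_tsum fun k => middle P hZ hlaw hρ e (k + M))
  have hfar : ∀ M : ℕ, 1 ≤ M → Tendsto (fun n => P {ω | (M : ℝ) / 4 ≤
      dist (flow (dft (ν n)) M (Z ω) e) (flow (dft μ) M (Z ω) e)}) atTop (𝓝 0) := by
    intro M hM
    have h1 : TendstoInMeasure P (fun n ω => flow (dft (ν n)) M (Z ω) e) atTop
        fun ω => flow (dft μ) M (Z ω) e := by
      refine tendstoInMeasure_of_tendsto_ae (fun n => ?_) (Eventually.of_forall fun ω => ?_)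
      · exact (measurable_flow_comp _ (hν n).isDrift_dft (hν n).good.meas Z hZ M
          e).aestronglyMeasurable
      · exact flow_tendstoB _ _ h.isDrift_dft (fun n => (hν n).isDrift_dft) hc M (Z ω) e
    exact tendstoInMeasure_iff_dist.1 h1 _ (by
      have : (1 : ℝ) ≤ M := by exact_mod_cast hM
      linarith)
  rw [ENNReal.tendsto_nhds_zero]
  intro ε hε
  have hε3 : 0 < ε / 3 := ENNReal.div_pos hε.ne' (by norm_num)
  obtain ⟨M, hM1, hM2⟩ := ((ENNReal.tendsto_nhds_zero.1 hτ0 _ hε3).and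
    (eventually_ge_atTop 6)).exists
  filter_upwards [ENNReal.tendsto_nhds_zero.1 (hfar M (by omega)) _ hε3] with n hn
  have hsub : {ω | conf (dft (ν n)) (Z ω) e ≠ conf (dft μ) (Z ω) e} ⊆
      ((⋃ k : ℕ, {ω | |flow (dft (ν n)) (k + M) (Z ω) e / (k + M : ℕ) - 1 / 2| ≤ 1 / 8}) ∪
      ⋃ k : ℕ, {ω | |flow (dft μ) (k + M) (Z ω) e / (k + M : ℕ) - 1 / 2| ≤ 1 / 8}) ∪
      {ω | (M : ℝ) / 4 ≤ dist (flow (dft (ν n)) M (Z ω) e) (flow (dft μ) M (Z ω) e)} := by
    intro ω hω
    by_contra hcon
    simp only [Set.mem_union, Set.mem_iUnion, Set.mem_ofPred_eq, not_or, not_exists] at hcon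
    obtain ⟨⟨h1, h2⟩, h3⟩ := hcon
    have h4 := mem_limitSet_iff (hν n).isDrift_dft (z := Z ω) (e := e) hM2 fun N hN => by
      have := h1 (N - M)
      rwa [Nat.sub_add_cancel hN] at this
    have h5 := mem_limitSet_iff h.isDrift_dft (z := Z ω) (e := e) hM2 fun N hN => by
      have := h2 (N - M)
      rwa [Nat.sub_add_cancel hN] at this
    rw [not_le, Real.dist_eq, abs_lt] at h3
    refine hω (Bool.eq_iff_iff.2 ?_)
    rw [conf_eq_true, conf_eq_true]
    rcases h4 with h4 | h4 <;> rcases h5 with h5 | h5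
    · exact iff_of_true h4.1 h5.1
    · linarith [h4.2, h5.2, h3.2]
    · linarith [h4.2, h5.2, h3.1]
    · exact iff_of_false h4.1 h5.1
  refine (measure_mono hsub).trans ((measure_union_le _ _).trans ?_)
  refine (add_le_add ((measure_union_le _ _).trans (add_le_add ((hbad _ (hν n) M).trans hM1)
    ((hbad _ h M).trans hM1))) hn).trans_eq (ENNReal.add_thirds ε)

include hZ hlaw in
theorem tendsto_ne_of_weak (hμ : IsStronglyRayleigh μ) (hh : Homog μ)
    {ν : ℕ → Measure (X → Bool)} (hν : ∀ n, IsStronglyRayleigh (ν n))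
    (h : ∀ f : C(X → Bool, ℝ), Tendsto (fun n => ∫ ω, f ω ∂ν n) atTop (𝓝 (∫ ω, f ω ∂μ)))
    (e : X) :
    Tendsto (fun n => P {ω | conf (dft (ν n)) (Z ω) e ≠ conf (dft μ) (Z ω) e}) atTop (𝓝 0) :=
  have := hμ.1
  tendsto_ne P hZ hlaw hμ.isHurwitz (fun n => (hν n).isHurwitz)
    (convDriftB_of_weak hμ hh hν (tendsto_qq h)) e

end

end Vale.Agent.N143X
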