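import Vale.Agent.P143.Statement
import Vale.Agent.N143.Defs

/-!
Definitions for the stability clauses.
-/

namespace Vale.Agent.N143X

open MeasureTheory Filter Topology unitInterval Vale.Agent.P143 Vale.Agent.N143
open scoped ComplexOrder

universe u

/-- The laws `ν n` on `{0,1}^X` converge weakly to `μ`. -/
def WeakLimit {X : Type*} (ν : ℕ → Measure (X → Bool)) (μ : Measure (X → Bool)) : Prop :=
  ∀ f : C(X → Bool, ℝ), Tendsto (fun n => ∫ ω, f ω ∂ν n) atTop (𝓝 (∫ ω, f ω ∂μ))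

/-- The random sets `Ψ n U` converge in probability to `Ψ₀ U`, for i.i.d. uniform labels `U`. -/
def InProb {L X : Type*} (Ψ : ℕ → (L → I) → X → Bool) (Ψ₀ : (L → I) → X → Bool) : Prop :=
  ∀ x, Tendsto (fun n => iidLabels L {U | Ψ n U x ≠ Ψ₀ U x}) atTop (𝓝 0)

/-- A rule producing an edge set from a graph, a law on its edge sets and vertex labels. -/
abbrev EdgeRule := ∀ {V : Type u} (G : SimpleGraph V),
  Measure (G.edgeSet → Bool) → (V → I) → G.edgeSet → Bool

/-- The rule commutes with all graph isomorphisms. -/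
def EdgeRule.Invariant (Φ : EdgeRule.{u}) : Prop :=
  ∀ {V V' : Type u} {G : SimpleGraph V} {G' : SimpleGraph V'} (τ : G ≃g G')
    (μ : Measure (G.edgeSet → Bool)) (U : V → I) (e : G.edgeSet),
    Φ G' (μ.map fun ω f => ω (τ.mapEdgeSet.symm f)) (U ∘ τ.symm) (τ.mapEdgeSet e) = Φ G μ U e

/-- `Ψ` is a measurable `Γ`-equivariant map of i.i.d. uniform labels on `Γ` with law `μ`; `act γ`
is the action of `γ` on `X`. -/
def IsFactorMap {Γ X : Type*} [Group Γ] (act : Γ → X → X) (Ψ : (Γ → I) → X → Bool)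
    (μ : Measure (X → Bool)) : Prop :=
  Measurable Ψ ∧ (∀ γ U x, Ψ (fun g => U (γ⁻¹ * g)) x = Ψ U (act γ⁻¹ x)) ∧
    (iidLabels Γ).map Ψ = μ

/-- The action of `Γ` on the edges of its Cayley graph by left multiplication. -/
def cayleyAct {Γ : Type*} [Group Γ] (S : Set Γ) (γ : Γ) :
    (SimpleGraph.mulCayley S).edgeSet → (SimpleGraph.mulCayley S).edgeSet :=
  (leftMul S γ).mapEdgeSet

/-- `μ` is invariant under the action. -/
def IsInv {Γ X : Type*} (act : Γ → X → X) (μ : Measure (X → Bool)) : Prop :=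
  ∀ γ, μ.map (fun ω x => ω (act γ x)) = μ

/-- `ν n` and `μ` are factors of the same i.i.d. labels, and `ν n → μ` in probability. -/
def JointLimit {Γ X : Type*} [Group Γ] (act : Γ → X → X) (ν : ℕ → Measure (X → Bool))
    (μ : Measure (X → Bool)) : Prop :=
  ∃ Ψ Ψ₀, (∀ n, IsFactorMap act (Ψ n) (ν n)) ∧ IsFactorMap act Ψ₀ μ ∧ InProb Ψ Ψ₀

/-- `μ` is the determinantal probability measure of the kernel `0 ≤ Q ≤ 1`:
`P(A ⊆ ω) = det (Q(x,y))_{x, y ∈ A}` for all finite `A`. -/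
def IsDPP {X : Type*} [DecidableEq X] (Q : Matrix X X ℂ) (μ : Measure (X → Bool)) : Prop :=
  Q.PosSemidef ∧ (1 - Q).PosSemidef ∧ IsProbabilityMeasure μ ∧ ∀ A : Finset X,
    (μ.real {ω | ∀ x ∈ A, ω x = true} : ℂ) = (Matrix.of fun x y : A => Q x y).det

/-- `Q² = Q`. -/
def IsProj {X : Type*} (Q : Matrix X X ℂ) : Prop :=
  ∀ x y, HasSum (fun z => Q x z * Q z y) (Q x y)

/-- The columns of `Qn n` converge in `ℓ²(X)` to those of `Q` (for `0 ≤ Qn n, Q ≤ 1` this is
convergence in the strong operator topology). -/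
def StrongLimit {X : Type*} (Qn : ℕ → Matrix X X ℂ) (Q : Matrix X X ℂ) : Prop :=
  ∀ y, Tendsto (fun n => ∑' x, ‖Qn n x y - Q x y‖ ^ 2) atTop (𝓝 0)

end Vale.Agent.N143X
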