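import Vale.Agent.N143X.Conv
import Vale.Agent.N143X.Defs
import Vale.Agent.N143.Det
import Vale.Agent.P143.H726.Root

/-!
Determinantal measures: projections have homogeneous drift, and the drift is continuous in the
strong operator topology.
-/

namespace Vale.Agent.N143X

open Filter Topology MeasureTheory Vale.Agent.N143 Vale.Agent.P143 Vale.Agent.P143.H536
  Vale.Agent.P143.H71 Matrix
open scoped InnerProductSpace

variable {X : Type*}

/-- bounded operators on `ℓ²(X)` -/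
abbrev Op (X : Type*) := L2 X →L[ℂ] L2 X

theorem IsDPP.stronglyRayleigh [DecidableEq X] {Q : Matrix X X ℂ} {μ : Measure (X → Bool)}
    (h : IsDPP Q μ) : IsStronglyRayleigh μ :=
  det_stronglyRayleigh ⟨Q, ⟨h.1, h.2.1⟩, h.2.2.1, h.2.2.2⟩

/-- the operator of the kernel -/
noncomputable def IsDPP.op [DecidableEq X] {Q : Matrix X X ℂ} {μ : Measure (X → Bool)}
    (h : IsDPP Q μ) : Op X := H726.op h.1 h.2.1

theorem IsDPP.op_delta [DecidableEq X] {Q : Matrix X X ℂ} {μ : Measure (X → Bool)}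
    (h : IsDPP Q μ) (x y : X) : (h.op (delta y) : X → ℂ) x = Q x y := by
  rw [IsDPP.op, H726.delta_eq, H726.op_single, mul_one]

theorem IsDPP.root [DecidableEq X] {Q : Matrix X X ℂ} {μ : Measure (X → Bool)}
    (h : IsDPP Q μ) : ∃ S : Op X, IsRoot S ∧ S * S = h.op :=
  exists_root ((ContinuousLinearMap.nonneg_iff_isPositive _).1 (H726.op_nonneg h.1 h.2.1))
    ((ContinuousLinearMap.le_def _ _).1 (H726.op_le_one h.1 h.2.1))

theorem IsDPP.isRoot [DecidableEq X] {Q : Matrix X X ℂ} {μ : Measure (X → Bool)}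
    (h : IsDPP Q μ) : IsRoot h.op := by
  obtain ⟨S, hS, hSS⟩ := h.root
  rw [← hSS]
  exact ⟨fun x y => (hS.symm _ _).trans (hS.symm _ _), fun x => (hS.le _).trans (hS.le _)⟩

theorem strong_of_delta [DecidableEq X] {T : ℕ → Op X} {T₀ : Op X} (hb : ∀ n v, ‖T n v‖ ≤ ‖v‖)
    (hb₀ : ∀ v, ‖T₀ v‖ ≤ ‖v‖)
    (h : ∀ y, Tendsto (fun n => T n (delta y)) atTop (𝓝 (T₀ (delta y)))) (v : L2 X) :
    Tendsto (fun n => T n v) atTop (𝓝 (T₀ v)) := by
  rw [Metric.tendsto_nhds]
  intro ε hε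
  obtain ⟨G, hG⟩ := (Metric.tendsto_nhds.1 (H726.tendsto_trunc v) (ε / 3) (by positivity)).exists
  have h1 : H726.trunc v G = ∑ y ∈ G, (v : X → ℂ) y • delta y := by
    refine Finset.sum_congr rfl fun y _ => ?_
    rw [H726.delta_eq, ← lp.single_smul, smul_eq_mul, mul_one]
  have h2 : Tendsto (fun n => T n (H726.trunc v G)) atTop (𝓝 (T₀ (H726.trunc v G))) := by
    simp only [h1, map_sum, map_smul]
    exact tendsto_finsetSum _ fun y _ => (h y).const_smul _
  filter_upwards [Metric.tendsto_nhds.1 h2 (ε / 3) (by positivity)] with n hn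
  have h3 := hb n (v - H726.trunc v G)
  have h4 := hb₀ (H726.trunc v G - v)
  rw [map_sub, ← dist_eq_norm, ← dist_eq_norm] at h3 h4
  rw [dist_comm v] at h3
  linarith [dist_triangle4 (T n v) (T n (H726.trunc v G)) (T₀ (H726.trunc v G)) (T₀ v)]

theorem IsDPP.op_mul [DecidableEq X] {Q : Matrix X X ℂ} {μ : Measure (X → Bool)}
    (h : IsDPP Q μ) (hQ : IsProj Q) : h.op * h.op = h.op := by
  have h1 : ∀ y, (h.op * h.op) (delta y) = h.op (delta y) := by
    intro y
    ext x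
    have h2 := lp.hasSum_inner (𝕜 := ℂ) (H726.rowvec h.1 h.2.1 x) (h.op (delta y))
    simp only [H726.rowvec_apply, h.op_delta, RCLike.inner_apply', Complex.conj_conj] at h2
    rw [h.op_delta]
    exact h2.unique (hQ x y)
  ext1 v
  exact tendsto_nhds_unique tendsto_const_nhds (strong_of_delta (T := fun _ => h.op * h.op)
    (fun _ v => (h.isRoot.le _).trans (h.isRoot.le _)) h.isRoot.le
    (fun y => by rw [h1]; exact tendsto_const_nhds) v)

theorem IsDPP.corr [DecidableEq X] {Q : Matrix X X ℂ} {S : Op X} {μ : Measure (X → Bool)}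
    (h : IsDPP Q μ) (hS : S * S = h.op) : Corr S μ := by
  intro T
  have h1 : (Matrix.of fun x y : T => Q x y) = sec S T := by
    ext x y
    rw [Matrix.of_apply, ← h.op_delta, ← hS]
    rfl
  rw [h.2.2.2 T, h1]
  congr 1

theorem rr_scale {S : Op X} (hS : IsRoot S) (hSS : S * S = S) {w w' : X → ℝ} {C : ℝ}
    (hw : LB C w) (hw' : LB C w') {t : ℝ} (ht : 0 < t) (h : ∀ f, w' f = t * w f) (e : X) :
    rr S w e ≤ t * rr S w' e := by
  have hC : 0 ≤ C := (abs_nonneg _).trans (hw e).2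
  have hid : ∀ x, S (S x) = S x := fun x => congrArg (fun T : Op X => T x) hSS
  set v := sol S w e with hv
  have h1 := le_rr hS hw' hC e (((t⁻¹ : ℝ) : ℂ) • S v)
  have h2 : RCLike.re ⟪kv S e, ((t⁻¹ : ℝ) : ℂ) • S v⟫_ℂ = t⁻¹ * rr S w e := by
    rw [inner_smul_right, ← hS.symm, kv_eq, hid, ← kv_eq, inner_kv_sol hS hw hC,
      ← Complex.ofReal_mul]
    rfl
  have h3 : RCLike.re ⟪mulOp w' (S v), S v⟫_ℂ = t * RCLike.re ⟪mulOp w (S v), S v⟫_ℂ := by
    refine (hasSum_re_inner_mulOp hw'.abs_le (S v)).unique ?_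
    simpa only [h, mul_assoc] using (hasSum_re_inner_mulOp hw.abs_le (S v)).mul_left t
  have h4 : RCLike.re ⟪Bw S w' (((t⁻¹ : ℝ) : ℂ) • S v), ((t⁻¹ : ℝ) : ℂ) • S v⟫_ℂ =
      t⁻¹ * RCLike.re ⟪mulOp w (S v), S v⟫_ℂ := by
    rw [map_smul, inner_smul_left, inner_smul_right, Complex.conj_ofReal, ← mul_assoc,
      ← Complex.ofReal_mul]
    change (((t⁻¹ * t⁻¹ : ℝ) : ℂ) * _).re = _
    rw [Complex.re_ofReal_mul]
    have h5 := re_Bw hS hw' (S v)
    rw [hid, sub_self, zero_add, h3] at h5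
    change _ * RCLike.re ⟪Bw S w' (S v), S v⟫_ℂ = _
    rw [h5]
    field_simp
  have h5 : RCLike.re ⟪mulOp w (S v), S v⟫_ℂ ≤ rr S w e := by
    rw [rr_eq hS hw hC, re_Bw hS hw]
    have := pow_le_pow_left₀ (norm_nonneg _) (hS.le v) 2
    linarith
  rw [h2, h4] at h1
  have h6 := mul_le_mul_of_nonneg_left h5 (inv_pos.2 ht).le
  rw [← inv_mul_le_iff₀ ht]
  linarith

theorem IsDPP.homog [DecidableEq X] {Q : Matrix X X ℂ} {μ : Measure (X → Bool)}
    (h : IsDPP Q μ) (hP : IsProj Q) : Homog μ := by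
  have := h.2.2.1
  have hS := h.isRoot
  have hQ := h.op_mul hP
  intro K a w hw e
  have hw1 : LB (K + |a|) w := hw.mono (by linarith [abs_nonneg a])
  have hw2 : LB (K + |a|) fun f => Real.exp a * w f := LB_mul hw
  rw [dft_eq hS (h.corr hQ) hw1, dft_eq hS (h.corr hQ) hw2]
  have h1 := rr_scale hS hQ hw1 hw2 (Real.exp_pos a) (fun _ => rfl) e
  have h2 := rr_scale hS hQ hw2 hw1 (inv_pos.2 (Real.exp_pos a)) (fun f => by
    field_simp) e
  rw [le_inv_mul_iff₀ (Real.exp_pos a)] at h2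
  rw [mul_comm (Real.exp a), mul_assoc, le_antisymm h2 h1]

theorem norm_mulOp_le {u : X → ℝ} {C : ℝ} (hC : 0 ≤ C) (hu : ∀ e, |u e| ≤ C) (x : L2 X) :
    ‖mulOp u x‖ ≤ C * ‖x‖ := by
  refine le_of_sq_le_sq ?_ (by positivity)
  rw [mul_pow]
  refine hasSum_le (fun e => ?_) (hasSum_norm_sq _) ((hasSum_norm_sq x).mul_left _)
  rw [mulOp_apply hu, norm_mul, mul_pow, Complex.norm_real, Real.norm_eq_abs]
  exact mul_le_mul_of_nonneg_right (pow_le_pow_left₀ (abs_nonneg _) (hu e) 2) (sq_nonneg _)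

theorem tendsto_mulOp {w : X → ℝ} {wn : ℕ → X → ℝ} {C : ℝ} (hw : LB C w)
    (hwn : ∀ n, LB C (wn n)) (h : ∀ f, Tendsto (fun n => wn n f) atTop (𝓝 (w f))) (x : L2 X) :
    Tendsto (fun n => ‖mulOp w x - mulOp (wn n) x‖) atTop (𝓝 0) := by
  have hn2 : ∀ n, ‖mulOp w x - mulOp (wn n) x‖ ^ 2 =
      ∑' f, (w f - wn n f) ^ 2 * ‖(x : X → ℂ) f‖ ^ 2 := by
    intro n
    rw [← (hasSum_norm_sq _).tsum_eq]
    refine tsum_congr fun f => ?_
    rw [lp.coeFn_sub, Pi.sub_apply, mulOp_apply (hwn n).abs_le, mulOp_apply hw.abs_le, ← sub_mul,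
      norm_mul, mul_pow, ← Complex.ofReal_sub, Complex.norm_real, Real.norm_eq_abs, sq_abs]
  have ht : Tendsto (fun n => ‖mulOp w x - mulOp (wn n) x‖ ^ 2) atTop (𝓝 0) := by
    simp only [hn2]
    have h0 : (0 : ℝ) = ∑' f : X, (0 : ℝ) := by simp
    rw [h0]
    refine tendsto_tsum_of_dominated_convergence
      (bound := fun f => (Real.exp C) ^ 2 * ‖(x : X → ℂ) f‖ ^ 2)
      ((hasSum_norm_sq x).summable.mul_left _) (fun f => ?_) (Eventually.of_forall fun n f => ?_)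
    · simpa using (((h f).const_sub (w f)).pow 2).mul_const (‖(x : X → ℂ) f‖ ^ 2)
    · rw [Real.norm_eq_abs, abs_mul, abs_of_nonneg (sq_nonneg ‖(x : X → ℂ) f‖), abs_pow]
      refine mul_le_mul_of_nonneg_right (pow_le_pow_left₀ (abs_nonneg _) ?_ 2) (sq_nonneg _)
      have h1 := (hwn n).pos f
      have h2 := (hwn n).le_exp f
      have h3 := hw.pos f
      have h4 := hw.le_exp f
      rw [abs_le]; constructor <;> linarith
  simpa [Function.comp_def, Real.sqrt_sq (norm_nonneg _)] using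
    (Real.continuous_sqrt.tendsto 0).comp ht

theorem tendsto_rr_strong {S : Op X} {Sn : ℕ → Op X} (hS : IsRoot S) (hSn : ∀ n, IsRoot (Sn n))
    (hlim : ∀ v, Tendsto (fun n => Sn n (Sn n v)) atTop (𝓝 (S (S v)))) {w : X → ℝ}
    {wn : ℕ → X → ℝ} {C : ℝ} (hw : LB C w) (hwn : ∀ n, LB C (wn n))
    (h : ∀ f, Tendsto (fun n => wn n f) atTop (𝓝 (w f))) (e : X) :
    Tendsto (fun n => rr (Sn n) (wn n) e) atTop (𝓝 (rr S w e)) := by
  have hC : 0 ≤ C := (abs_nonneg _).trans (hw e).2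
  obtain ⟨y, hy1, hy2⟩ : ∃ y : L2 X, S y = sol S w e ∧
      delta e = y + (mulOp w (S (S y)) - S (S y)) := by
    have hB := Bw_sol hS hw hC e
    rw [Bw_apply, kv_eq] at hB
    have h1 : S (delta e - (mulOp w (S (sol S w e)) - S (sol S w e))) = sol S w e := by
      rw [map_sub, map_sub, ← hB]
      abel
    exact ⟨_, h1, by rw [h1, sub_add_cancel]⟩
  have h1 := tendsto_iff_norm_sub_tendsto_zero.1 (hlim y)
  have h2 := tendsto_mulOp hw hwn h (S (S y))
  have hb : ∀ n, ‖rr (Sn n) (wn n) e - rr S w e‖ ≤ Real.exp C *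
      (‖mulOp w (S (S y)) - mulOp (wn n) (S (S y))‖ +
        (Real.exp C + 1) * ‖Sn n (Sn n y) - S (S y)‖) + ‖Sn n (Sn n y) - S (S y)‖ := by
    intro n
    set T := Sn n with hT
    set d := T (T y) - S (S y) with hd
    have h3 : Bw T (wn n) (sol T (wn n) e - T y) =
        T ((mulOp w (S (S y)) - mulOp (wn n) (S (S y))) - (mulOp (wn n) d - d)) := by
      rw [map_sub, Bw_sol (hSn n) (hwn n) hC e, kv_eq, hy2, Bw_apply, hd]
      simp only [map_sub, map_add]
      abel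
    have h4 := norm_Bw_ge (hSn n) (hwn n) hC (sol T (wn n) e - T y)
    rw [h3, Real.exp_neg, inv_mul_le_iff₀ (Real.exp_pos C)] at h4
    have h5 : ‖mulOp (wn n) d - d‖ ≤ (Real.exp C + 1) * ‖d‖ := by
      have := norm_mulOp_le (Real.exp_pos C).le (hwn n).abs_le d
      linarith [norm_sub_le (mulOp (wn n) d) d]
    have h6 := h4.trans (mul_le_mul_of_nonneg_left (((hSn n).le _).trans
      ((norm_sub_le _ _).trans (add_le_add le_rfl h5))) (Real.exp_pos C).le)
    have h7 : ((rr T (wn n) e - rr S w e : ℝ) : ℂ) =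
        (T (sol T (wn n) e - T y) + d : L2 X) e := by
      rw [Complex.ofReal_sub, ← sol_apply (hSn n) (hwn n) hC e, ← sol_apply hS hw hC e, ← hy1,
        map_sub, hd, sub_add_sub_cancel, lp.coeFn_sub, Pi.sub_apply]
    rw [← Complex.norm_real, h7]
    refine (lp.norm_apply_le_norm (by norm_num) _ e).trans ((norm_add_le _ _).trans ?_)
    exact add_le_add (((hSn n).le _).trans h6) le_rfl
  rw [tendsto_iff_norm_sub_tendsto_zero]
  refine squeeze_zero (fun n => norm_nonneg _) hb ?_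
  simpa using ((h2.add (h1.const_mul (Real.exp C + 1))).const_mul (Real.exp C)).add h1

theorem convDriftB_of_strong [DecidableEq X] {Q : Matrix X X ℂ} {Qn : ℕ → Matrix X X ℂ}
    {μ : Measure (X → Bool)} {ν : ℕ → Measure (X → Bool)} (hμ : IsDPP Q μ)
    (hν : ∀ n, IsDPP (Qn n) (ν n)) (hst : StrongLimit Qn Q) :
    ConvDriftB (fun n => dft (ν n)) (dft μ) := by
  have hlim := strong_of_delta (T := fun n => (hν n).op) (fun n => (hν n).isRoot.le) hμ.isRoot.le
    fun y => by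
      have h1 : ∀ n, ∑' x, ‖Qn n x y - Q x y‖ ^ 2 =
          ‖(hν n).op (delta y) - hμ.op (delta y)‖ ^ 2 := fun n => by
        rw [← (hasSum_norm_sq _).tsum_eq]
        simp only [lp.coeFn_sub, Pi.sub_apply, IsDPP.op_delta]
      have h2 := hst y
      simp only [h1] at h2
      rw [tendsto_iff_norm_sub_tendsto_zero]
      simpa [Function.comp_def, Real.sqrt_sq (norm_nonneg _)] using
        (Real.continuous_sqrt.tendsto 0).comp h2
  obtain ⟨S, hS, hSS⟩ := hμ.root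
  choose Sn hSn hSSn using fun n => (hν n).root
  intro w wn K hw hwn hwK hwnK h e
  have hLB : LB K w := fun f => ⟨hw f, hwK f⟩
  have hLBn : ∀ n, LB K (wn n) := fun n f => ⟨hwn n f, hwnK n f⟩
  have := hμ.2.2.1
  rw [dft_eq hS (hμ.corr hSS) hLB]
  refine ((h e).mul (tendsto_rr_strong hS hSn (fun v => ?_) hLB hLBn h e)).congr fun n => ?_
  · have h1 := hlim v
    simp only [← hSS, ← hSSn] at h1
    exact h1
  · have := (hν n).2.2.1
    exact (dft_eq (hSn n) ((hν n).corr (hSSn n)) (hLBn n) e).symm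

end Vale.Agent.N143X
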