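import Vale.Agent.N143X.Conv
import Vale.Agent.N143.Ust

/-!
The drift of the free uniform spanning forest does not change under a uniform tilt.
-/

namespace Vale.Agent.N143X

open Filter Topology MeasureTheory Vale.Agent.N143 Vale.Agent.P143 Vale.Agent.P143.H536
  SimpleGraph
open Vale.Agent.P143.H71 (qq LB dft prior_qq cut)

variable {V : Type*} {G : SimpleGraph V}

open Classical in
/-- extension of edge weights by `1` -/
noncomputable def extw {M : Type*} [One M] (w : G.edgeSet → M) (e : Sym2 V) : M :=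
  if h : e ∈ G.edgeSet then w ⟨e, h⟩ else 1

theorem extw_coe {M : Type*} [One M] (w : G.edgeSet → M) (e : G.edgeSet) : extw w e = w e := by
  simp [extw]

theorem extw_pos {w : G.edgeSet → ℝ} (hw : ∀ f, 0 < w f) (e : Sym2 V) : 0 < extw w e := by
  unfold extw
  split_ifs
  · exact hw _
  · exact one_pos

theorem prod_extw [DecidableEq (Sym2 V)] {M : Type*} [CommMonoid M] (S : Finset G.edgeSet)
    {u v : G.edgeSet → M} (h1 : ∀ f ∈ S, v f = u f) (h2 : ∀ f ∉ S, v f = 1)
    (T : Finset (Sym2 V)) :
    ∏ j ∈ T, extw v j = ∏ f ∈ S, (if (f : Sym2 V) ∈ T then u f else 1) := by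
  classical
  have h3 : extw v = (S.map (Function.Embedding.subtype _)).piecewise (extw u) fun _ => 1 := by
    funext j
    by_cases hj : j ∈ S.map (Function.Embedding.subtype _)
    · rw [Finset.piecewise_eq_of_mem _ _ _ hj]
      obtain ⟨g, hg, rfl⟩ := Finset.mem_map.1 hj
      exact (extw_coe v g).trans ((h1 g hg).trans (extw_coe u g).symm)
    · rw [Finset.piecewise_eq_of_notMem _ _ _ hj]
      unfold extw
      split_ifs with h
      · exact h2 _ fun hS => hj (Finset.mem_map.2 ⟨_, hS, rfl⟩)
      · rfl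
  rw [h3, Finset.prod_piecewise, Finset.prod_const_one, mul_one, Finset.inter_comm,
    ← Finset.filter_mem_eq_inter, Finset.prod_filter, Finset.prod_map]
  refine Finset.prod_congr rfl fun x _ => ?_
  simp [extw_coe]

theorem upr_ust [Countable V] [DecidableEq (Sym2 V)] (H : G.Subgraph) (hc : H.Connected)
    (F : Finset (Sym2 V)) (hF : (F : Set (Sym2 V)) = H.edgeSet) {S : Finset G.edgeSet}
    {e : G.edgeSet} (he : e ∈ S) (u : G.edgeSet → ℝ) :
    upr S.powerset (qq (ust H) S) u e = ustp (spans F) (extw (cut S u)) e := by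
  have := isProbabilityMeasure_ust H hc F hF
  have hc0 : ((spans F).card : ℝ) ≠ 0 := by exact_mod_cast (spans_nonempty F).card_pos.ne'
  have h1 := prod_extw S (u := u) (v := cut S u) (fun f hf => by simp [cut, hf])
    fun f hf => by simp [cut, hf]
  rw [upr_eq_integral _ he, integral_ust H hc F hF, integral_ust H hc F hF,
    div_div_div_cancel_right₀ hc0]
  unfold ustp
  rw [Finset.sum_filter]
  simp only [h1, decide_eq_true_eq, ite_mul, one_mul, zero_mul]

/-- uniform spanning trees are strongly Rayleigh -/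
theorem ust_stronglyRayleigh [Countable V] (H : G.Subgraph) (hc : H.Connected)
    (hf : H.verts.Finite) : IsStronglyRayleigh (ust H) := by
  classical
  obtain ⟨F, hF⟩ : ∃ F : Finset (Sym2 V), (F : Set (Sym2 V)) = H.edgeSet :=
    ⟨_, (edgeSet_finite hf).coe_toFinset⟩
  have hp := isProbabilityMeasure_ust H hc F hF
  refine ⟨hp, fun S z hz => ?_⟩
  have hnd : ∀ e ∈ F, ¬ e.IsDiag := fun e he =>
    G.not_isDiag_of_mem_edgeSet (H.edgeSet_subset (hF ▸ Finset.mem_coe.2 he))
  have h1 := zc_ne_zero hnd (extw fun f => if f ∈ S then z f else 1) fun f => by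
    unfold extw
    split_ifs with h
    · by_cases h' : (⟨f, h⟩ : G.edgeSet) ∈ S
      · exact Or.inl (by simpa [h'] using hz _ h')
      · exact Or.inr (if_neg h')
    · exact Or.inr rfl
  have h2 := prod_extw S (u := z) (v := fun f => if f ∈ S then z f else 1)
    (fun f hf => if_pos hf) fun f hf => if_neg hf
  set Φ : (G.edgeSet → Bool) → ℂ := fun ω => ∏ x ∈ S, (if ω x = true then z x else 1) with hΦ
  have hΦc : Continuous Φ := continuous_finsetProd _ fun x _ =>
    (continuous_of_discreteTopology (f := fun b : Bool => if b = true then z x else 1)).comp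
      (continuous_apply x)
  have : Countable (Sym2 V) := Quotient.countable
  have hint : Integrable Φ (ust H) :=
    hΦc.integrable_of_hasCompactSupport (HasCompactSupport.of_compactSpace _)
  have hc0 : ((spans F).card : ℝ) ≠ 0 := by exact_mod_cast (spans_nonempty F).card_pos.ne'
  intro h0
  have h3 : ∫ ω, Φ ω ∂ust H = 0 := h0
  have h4 := integral_re hint
  have h5 := integral_im hint
  rw [h3, integral_ust H hc F hF, map_zero, div_eq_zero_iff] at h4 h5
  refine h1 ?_
  unfold zc
  simp only [h2]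
  apply Complex.ext
  · simpa [hΦ, Complex.re_sum] using h4.resolve_right hc0
  · simpa [hΦ, Complex.im_sum] using h5.resolve_right hc0

section

variable [DecidableEq (Sym2 V)] {A : Set (Sym2 V)} (hA : ∀ e ∈ A, ¬ e.IsDiag)

include hA in
theorem drift_cont {F : ℕ → Finset (Sym2 V)} (hF : Monotone F) (hFA : ∀ e, e ∈ A ↔ ∃ n, e ∈ F n) :
    ConvDrift (fun _ => drift A) (drift A) := by
  intro w wn K hw hwn hlim hK e
  have h1 : ∀ k : ℕ, ∀ᶠ n in atTop,
      dist (ustp (spans (F n)) (wn k) e) (drift A (wn k) e) < 1 / ((k : ℝ) + 1) := fun k =>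
    Metric.tendsto_nhds.1 (convDrift hA F hF hFA (wn k) (fun _ => wn k) 0 (hwn k)
      (fun _ => hwn k) (fun _ => tendsto_const_nhds) (fun _ _ => by simp) e) _ (by positivity)
  obtain ⟨φ, hφ, h2⟩ := extraction_forall_of_eventually h1
  have h3 := convDrift hA (F ∘ φ) (hF.comp hφ.monotone) (fun f => by
    rw [hFA]
    exact ⟨fun ⟨n, hn⟩ => ⟨n, hF (hφ.id_le n) hn⟩, fun ⟨n, hn⟩ => ⟨φ n, hn⟩⟩) w wn K hw hwn
    hlim hK e
  refine h3.congr_dist (squeeze_zero (fun _ => dist_nonneg) (fun k => (h2 k).le) ?_)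
  exact tendsto_one_div_add_atTop_nhds_zero_nat

include hA in
theorem drift_scale {w w' : Sym2 V → ℝ} (hw : ∀ f, 0 < w f) (hw' : ∀ f, 0 < w' f) {c : ℝ}
    (hc : 0 < c) (h : ∀ f ∈ A, w f = c * w' f) {e : Sym2 V} (he : e ∈ A) :
    drift A w' e ≤ drift A w e := by
  refine le_drift hw he fun F hF heF => (drift_le hw' hF heF).trans ?_
  rw [ustp_eq, ustp_eq, h e he, mul_comm c, mul_assoc]
  exact mul_le_mul_of_nonneg_left
    (res_le_of_le (hA e he) heF hw' hw hc fun f hf => (h f (hF hf)).le) (hw' e).le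

end

theorem dft_fusf [DecidableEq (Sym2 V)] {μ : Measure (G.edgeSet → Bool)} (h : IsFUSF G μ)
    {K : ℝ} {w : G.edgeSet → ℝ} (hw : LB K w) (e : G.edgeSet) :
    dft μ w e = drift G.edgeSet (extw w) e := by
  classical
  have hsr := fusf_stronglyRayleigh h
  obtain ⟨hp, ⟨H, hH⟩, hlim⟩ := h
  have hcV : Countable V := by
    have h1 : (Set.univ : Set V) = ⋃ n, (H n).verts := by
      rw [← Subgraph.verts_iSup, hH.union, Subgraph.verts_top]
    exact Set.countable_univ_iff.1 (h1 ▸ Set.countable_iUnion fun n => (hH.finite n).countable)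
  have hcE : Countable (Sym2 V) := Quotient.countable
  have hnd : ∀ e ∈ G.edgeSet, ¬ e.IsDiag := fun e he => G.not_isDiag_of_mem_edgeSet he
  have hK : 0 ≤ K := (abs_nonneg _).trans (hw e).2
  have h1 : ∀ S : Finset G.edgeSet, e ∈ S →
      upr S.powerset (qq μ S) w e = drift G.edgeSet (extw (cut S w)) e := by
    intro S he
    have hpos := extw_pos (hw.cut hK S).pos
    refine tendsto_nhds_unique (tendsto_upr (tendsto_qq (hlim H hH)) hw.pos
      (fun _ => tendsto_const_nhds) S e) ?_
    refine (convDrift hnd hH.edges hH.edges_mono hH.mem_iff_exists _ (fun _ => extw (cut S w)) 0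
      hpos (fun _ => hpos) (fun _ => tendsto_const_nhds) (fun _ _ => by simp) e).congr fun n => ?_
    exact (upr_ust (H n) (hH.connected n) _ (hH.coe_edges n) he w).symm
  obtain ⟨S, hS, hSE⟩ := H71.exists_exhaustion_finset (E := G.edgeSet)
  have h2 : Tendsto S atTop atTop := tendsto_atTop_finset_of_monotone hS hSE
  refine tendsto_nhds_unique ((hsr.isHurwitz.tendsto_dft hw e).comp h2) ?_
  refine (drift_cont hnd hH.edges_mono hH.mem_iff_exists (extw w)
    (fun k => extw (cut (S k) w)) K (extw_pos hw.pos) (fun k => extw_pos (hw.cut hK _).pos)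
    (fun f => ?_) (fun k f => ?_) e).congr' ?_
  · unfold extw
    split_ifs
    · exact (H71.tendsto_cut _).comp h2
    · exact tendsto_const_nhds
  · unfold extw cut
    split_ifs
    · simpa using hK
    · simpa using (hw _).2
    · simpa using hK
  · filter_upwards [h2.eventually_ge_atTop {e}] with k hk
    exact (h1 _ (hk (Finset.mem_singleton_self e))).symm

theorem homog_fusf {μ : Measure (G.edgeSet → Bool)} (h : IsFUSF G μ) : Homog μ := by
  classical
  intro K a w hw e
  have hnd : ∀ e ∈ G.edgeSet, ¬ e.IsDiag := fun e he => G.not_isDiag_of_mem_edgeSet he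
  have hw' : LB (K + |a|) fun f => Real.exp a * w f := LB_mul hw
  rw [dft_fusf h hw, dft_fusf h hw']
  refine le_antisymm ?_ ?_
  · refine drift_scale hnd (extw_pos hw.pos) (extw_pos hw'.pos) (Real.exp_pos (-a))
      (fun f hf => ?_) e.2
    simp [extw, hf, Real.exp_neg]
  · refine drift_scale hnd (extw_pos hw'.pos) (extw_pos hw.pos) (Real.exp_pos a)
      (fun f hf => ?_) e.2
    simp [extw, hf]

end Vale.Agent.N143X
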