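import Vale.Agent.N143X.Forest
import Vale.Agent.N143X.Dpp

/-!
The edge rule, and joint factor maps for group actions.
-/

namespace Vale.Agent.N143X

open Filter Topology MeasureTheory Vale.Agent.N143 Vale.Agent.P143 Vale.Agent.P143.H536
  SimpleGraph unitInterval
open Vale.Agent.P143.H71 (dft)

universe u

/-- the configuration obtained from the edge noise of the graph -/
noncomputable def erul : EdgeRule.{u} := fun G μ U =>
  conf (dft μ) fun e : G.edgeSet => edgeNoise G U e

theorem erul_invariant : EdgeRule.Invariant erul.{u} := by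
  intro V V' G G' τ μ U e
  have h := conf_comap (τ.mapEdgeSet : G.edgeSet → G'.edgeSet)
    (dft (H71.tr τ.mapEdgeSet μ)) (dft μ) (fun w _ x => H71.dft_tr τ.mapEdgeSet μ w x)
    (fun f : G'.edgeSet => edgeNoise G' (U ∘ τ.symm) f) e
  refine h.trans ?_
  unfold erul
  congr 1
  funext f
  have h1 := edgeNoiseAux_equiv logistic τ.toEquiv G.Adj G'.Adj (fun v w => τ.map_adj_iff)
    (U ∘ τ.symm) f
  have h2 : (fun x => (U ∘ τ.symm) (τ.toEquiv x)) = U := by
    funext x
    simp
  rw [h2] at h1
  exact h1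

variable {V : Type u} {G : SimpleGraph V}

theorem measurable_noise [Countable V] (G : SimpleGraph V) :
    Measurable fun (U : V → I) (e : G.edgeSet) => edgeNoise G U e :=
  measurable_pi_iff.2 fun e => (measurable_pi_apply (e : Sym2 V)).comp
    (measurable_edgeNoise_fixed G)

theorem map_noise [Countable V] (hG : ∀ v, (G.neighborSet v).Finite) :
    (iidLabels V).map (fun (U : V → I) (e : G.edgeSet) => edgeNoise G U e) =
      Measure.infinitePi fun _ : G.edgeSet => logistic :=
  map_edgeNoiseAux logistic G.Adj hG G.edgeSet fun _ _ h => ⟨h, G.ne_of_adj h⟩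

theorem measurable_erul [Countable V] (G : SimpleGraph V) :
    Measurable fun p : Measure (G.edgeSet → Bool) × (V → I) => erul G p.1 p.2 := by
  have : Countable (Sym2 V) := Quotient.countable
  have h1 := (H71.measurable_conf (E := G.edgeSet)).comp
    (measurable_fst.prodMk ((measurable_noise G).comp measurable_snd))
  simp only [Function.comp_def, H71.conf_eq] at h1
  exact h1

theorem erul_law [Countable V] (hG : ∀ v, (G.neighborSet v).Finite)
    {μ : Measure (G.edgeSet → Bool)} (h : IsStronglyRayleigh μ) :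
    (iidLabels V).map (erul G μ) = μ := by
  have : Countable (Sym2 V) := Quotient.countable
  exact h.isHurwitz.good.law' (iidLabels V) _ (measurable_noise G) (map_noise hG)

theorem erul_stable [Countable V] (hG : ∀ v, (G.neighborSet v).Finite)
    {μ : Measure (G.edgeSet → Bool)} (h : IsFUSF G μ) {ν : ℕ → Measure (G.edgeSet → Bool)}
    (hν : ∀ n, IsStronglyRayleigh (ν n)) (hlim : WeakLimit ν μ) :
    InProb (fun n => erul G (ν n)) (erul G μ) := by
  have : Countable (Sym2 V) := Quotient.countable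
  have hp : IsProbabilityMeasure (iidLabels V) := by unfold iidLabels; infer_instance
  exact fun e => tendsto_ne_of_weak (iidLabels V) (measurable_noise G) (map_noise hG)
    (fusf_stronglyRayleigh h) (homog_fusf h) hν hlim e

theorem graph_part : ∃ Φ : EdgeRule.{u}, Φ.Invariant ∧
    ∀ (V : Type u) (G : SimpleGraph V), G.Connected → (∀ v, (G.neighborSet v).Finite) →
      (Measurable fun p : Measure (G.edgeSet → Bool) × (V → I) => Φ G p.1 p.2) ∧
      (∀ μ, IsStronglyRayleigh μ → (iidLabels V).map (Φ G μ) = μ) ∧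
      (∀ H : G.Subgraph, H.Connected → H.verts.Finite → IsStronglyRayleigh (ust H)) ∧
      ∀ μ, IsFUSF G μ → IsStronglyRayleigh μ ∧ ∀ ν, (∀ n, IsStronglyRayleigh (ν n)) →
        WeakLimit ν μ → InProb (fun n => Φ G (ν n)) (Φ G μ) := by
  refine ⟨erul, erul_invariant, fun V G hc hG => ?_⟩
  have := countable_of_locallyFinite G hc hG
  exact ⟨measurable_erul G, fun μ h => erul_law hG h, fun H => ust_stronglyRayleigh H,
    fun μ h => ⟨fusf_stronglyRayleigh h, fun ν hν hlim => erul_stable hG h hν hlim⟩⟩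

section Cayley

variable {Γ : Type u} [Group Γ] {S : Set Γ}

theorem erul_factor [Countable Γ] (hS : S.Finite) {μ : Measure ((mulCayley S).edgeSet → Bool)}
    (h : IsStronglyRayleigh μ) (hinv : IsInv (cayleyAct S) μ) :
    IsFactorMap (cayleyAct S) (erul (mulCayley S) μ) μ := by
  have hm := (measurable_erul (mulCayley S)).comp (f := fun U : Γ → I => (μ, U))
    (measurable_const.prodMk measurable_id)
  simp only [Function.comp_def] at hm
  refine ⟨hm, fun γ U e => ?_, erul_law (mulCayley_locallyFinite S hS) h⟩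
  have h0 : ∀ f, (leftMul S γ).mapEdgeSet.symm f = cayleyAct S γ⁻¹ f := fun f => rfl
  have h1 := erul_invariant (leftMul S γ) μ U ((leftMul S γ).mapEdgeSet.symm e)
  rw [Equiv.apply_symm_apply] at h1
  simp only [h0, hinv γ⁻¹] at h1
  exact h1

theorem fusf_inv (hS : S.Finite) (hcl : Subgroup.closure S = ⊤)
    {μ : Measure ((mulCayley S).edgeSet → Bool)} (h : IsFUSF (mulCayley S) μ) :
    IsInv (cayleyAct S) μ := by
  obtain ⟨μ', h1, Φ, hm, heq, hlaw⟩ := cayley_part S hS hcl
  have : Countable Γ := countable_of_locallyFinite _ (mulCayley_connected S hcl)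
    (mulCayley_locallyFinite S hS)
  have : Countable (Sym2 Γ) := Quotient.countable
  obtain rfl : μ = μ' := by
    obtain ⟨H, hH⟩ := h.2.1
    have := h.1
    have := h1.1
    exact H71.ext_cyl fun A B _ =>
      tendsto_nhds_unique (tendsto_qq (h.2.2 H hH) A B) (tendsto_qq (h1.2.2 H hH) A B)
  intro γ
  have h2 : (iidLabels Γ).map (fun U v => U (γ * v)) = iidLabels Γ := by
    unfold iidLabels
    exact Measure.map_infinitePi_infinitePi_of_inj (mul_right_injective γ)
  have h3 : Measurable fun (ω : (mulCayley S).edgeSet → Bool) x =>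
      ω (cayleyAct S γ x) := by fun_prop
  conv_lhs => rw [hlaw]
  conv_rhs => rw [hlaw, ← h2]
  rw [Measure.map_map h3 hm, Measure.map_map hm (by fun_prop)]
  congr 1
  funext U e
  have h4 := heq γ⁻¹ U e
  rw [inv_inv] at h4
  exact h4.symm

theorem cayley_factor (hS : S.Finite) (hcl : Subgroup.closure S = ⊤) :
    ∃ μ Ψ, IsFUSF (mulCayley S) μ ∧ IsFactorMap (cayleyAct S) Ψ μ := by
  obtain ⟨μ, h1, Φ, hm, heq, hlaw⟩ := cayley_part S hS hcl
  exact ⟨μ, Φ, h1, hm, heq, hlaw.symm⟩

theorem cayley_stable (hS : S.Finite) (hcl : Subgroup.closure S = ⊤)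
    {μ : Measure ((mulCayley S).edgeSet → Bool)} (h : IsFUSF (mulCayley S) μ)
    {ν : ℕ → Measure ((mulCayley S).edgeSet → Bool)}
    (hν : ∀ n, IsStronglyRayleigh (ν n) ∧ IsInv (cayleyAct S) (ν n))
    (hlim : WeakLimit ν μ) : JointLimit (cayleyAct S) ν μ := by
  have : Countable Γ := countable_of_locallyFinite _ (mulCayley_connected S hcl)
    (mulCayley_locallyFinite S hS)
  exact ⟨_, _, fun n => erul_factor hS (hν n).1 (hν n).2,
    erul_factor hS (fusf_stronglyRayleigh h) (fusf_inv hS hcl h),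
    erul_stable (mulCayley_locallyFinite S hS) h (fun n => (hν n).1) hlim⟩

end Cayley

section Group

variable {Γ X : Type*} [Group Γ] [MulAction Γ X] [Countable X]

theorem orb_factor (hΓ : FinStab Γ X) {μ : Measure (X → Bool)} (h : IsStronglyRayleigh μ)
    (hinv : IsInv (fun (γ : Γ) (x : X) => γ • x) μ) :
    IsFactorMap (fun (γ : Γ) (x : X) => γ • x)
      (fun U => conf (dft μ) (orbNoise logistic hΓ U)) μ := by
  have hg := h.isHurwitz.good
  refine ⟨(measurable_conf_fixed _ hg.drift hg.meas).comp (measurable_orbNoise logistic hΓ),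
    fun γ U x => ?_, hg.law' (iidLabels Γ) _ (measurable_orbNoise logistic hΓ)
      (map_orbNoise logistic hΓ)⟩
  have h1 := conf_comap (fun y : X => γ⁻¹ • y) (dft μ) (dft μ)
    (fun w _ x => H71.dft_smul (fun γ => hinv γ⁻¹) γ⁻¹ w x) (orbNoise logistic hΓ U) x
  refine Eq.trans ?_ h1.symm
  have h2 : orbNoise logistic hΓ (fun g => U (γ⁻¹ * g)) =
      orbNoise logistic hΓ U ∘ fun y => γ⁻¹ • y := by
    ext e
    exact orbNoise_smul logistic hΓ γ U e
  change conf (dft μ) (orbNoise logistic hΓ (fun g => U (γ⁻¹ * g))) x = _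
  rw [h2]

theorem jointLimit_of_conv (hΓ : ∀ x : X, Finite (MulAction.stabilizer Γ x))
    {μ : Measure (X → Bool)} {ν : ℕ → Measure (X → Bool)} (hμ : IsStronglyRayleigh μ)
    (hinv : IsInv (fun (γ : Γ) (x : X) => γ • x) μ) (hν : ∀ n, IsStronglyRayleigh (ν n))
    (hνi : ∀ n, IsInv (fun (γ : Γ) (x : X) => γ • x) (ν n))
    (hc : ConvDriftB (fun n => dft (ν n)) (dft μ)) :
    JointLimit (fun (γ : Γ) (x : X) => γ • x) ν μ := by
  have hp : IsProbabilityMeasure (iidLabels Γ) := by unfold iidLabels; infer_instance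
  have hf : FinStab Γ X := fun x => Set.toFinite (MulAction.stabilizer Γ x : Set Γ)
  exact ⟨_, _, fun n => orb_factor hf (hν n) (hνi n), orb_factor hf hμ hinv,
    fun x => tendsto_ne (iidLabels Γ) (measurable_orbNoise logistic hf) (map_orbNoise logistic hf)
      hμ.isHurwitz (fun n => (hν n).isHurwitz) hc x⟩

theorem group_part [DecidableEq X] (hΓ : ∀ x : X, Finite (MulAction.stabilizer Γ x))
    (Q : Matrix X X ℂ) (μ : Measure (X → Bool)) (ν : ℕ → Measure (X → Bool)) (hμ : IsDPP Q μ)
    (hinv : IsInv (fun (γ : Γ) (x : X) => γ • x) μ)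
    (hνi : ∀ n, IsInv (fun (γ : Γ) (x : X) => γ • x) (ν n))
    (h : (IsProj Q ∧ (∀ n, IsStronglyRayleigh (ν n)) ∧ WeakLimit ν μ) ∨
      ∃ Qn, (∀ n, IsDPP (Qn n) (ν n)) ∧ StrongLimit Qn Q) :
    JointLimit (fun (γ : Γ) (x : X) => γ • x) ν μ := by
  have := hμ.2.2.1
  rcases h with ⟨hQ, hν, hlim⟩ | ⟨Qn, hν, hlim⟩
  · exact jointLimit_of_conv hΓ hμ.stronglyRayleigh hinv hν hνi
      (convDriftB_of_weak hμ.stronglyRayleigh (hμ.homog hQ) hν (tendsto_qq hlim))
  · exact jointLimit_of_conv hΓ hμ.stronglyRayleigh hinv (fun n => (hν n).stronglyRayleigh) hνi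
      (convDriftB_of_strong hμ hν hlim)

end Group

end Vale.Agent.N143X
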