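import Vale.Agent.N143.Garding

/-!
The homogenization of a stable generating polynomial is stable; monotonicity of tilted marginals.
-/

namespace Vale.Agent.N143X

open Filter Topology MeasureTheory Metric Set Vale.Agent.N143 Vale.Agent.P143
  Vale.Agent.P143.H536

variable {X : Type*}

theorem Gh_stable {q : Finset X → ℝ} {F : Finset X} (hq : ∀ T ∈ F.powerset, 0 ≤ q T)
    (h : ∀ z : X → ℂ, (∀ f ∈ F, 0 < (z f).im) → gs q F z ≠ 0) :
    ∃ d : ℕ, (∀ T ∈ F.powerset, q T ≠ 0 → T.card ≤ d) ∧
      (∀ (a : ℝ) (x : X → ℝ), 0 ≤ a → (∀ f ∈ F, 0 < x f) → Gh q F d a (fun f => x f) ≠ 0) ∧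
      ∀ (σ : ℂ) (z : X → ℂ), 0 < σ.im → (∀ f ∈ F, 0 < (z f).im) → Gh q F d σ z ≠ 0 := by
  classical
  have hneg : ∀ z : X → ℂ, (∀ f ∈ F, (z f).im < 0) → gs q F z ≠ 0 := by
    intro z hz h0
    refine h (fun f => (starRingEnd ℂ) (z f)) (fun f hf => by simpa using hz f hf) ?_
    have := congrArg (starRingEnd ℂ) h0
    simpa [gs] using this
  obtain ⟨T₀, hT₀, hmax⟩ := (F.powerset.filter fun T => q T ≠ 0).exists_max_image Finset.card (by
    by_contra hne
    rw [Finset.not_nonempty_iff_eq_empty, Finset.filter_eq_empty_iff] at hne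
    refine h (fun _ => Complex.I) (fun _ _ => by simp) (Finset.sum_eq_zero fun T hT => ?_)
    rw [not_not.1 (hne hT), Complex.ofReal_zero, zero_mul])
  rw [Finset.mem_filter] at hT₀
  set d := T₀.card with hdd
  have hd : ∀ T ∈ F.powerset, q T ≠ 0 → T.card ≤ d :=
    fun T hT hT' => hmax T (Finset.mem_filter.2 ⟨hT, hT'⟩)
  have hpos : ∀ (a : ℝ) (x : X → ℝ), 0 ≤ a → (∀ f ∈ F, 0 < x f) →
      Gh q F d a (fun f => x f) ≠ 0 := by
    intro a x ha hx
    have h1 : 0 < ∑ T ∈ F.powerset, q T * (a ^ (d - T.card) * ∏ f ∈ T, x f) := by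
      have h2 : ∀ T ∈ F.powerset, 0 < ∏ f ∈ T, x f := fun T hT =>
        Finset.prod_pos fun f hf => hx f (Finset.mem_powerset.1 hT hf)
      refine Finset.sum_pos' (fun T hT => mul_nonneg (hq T hT)
        (mul_nonneg (pow_nonneg ha _) (h2 T hT).le)) ⟨T₀, hT₀.1, ?_⟩
      rw [Nat.sub_self, pow_zero, one_mul]
      exact mul_pos ((hq T₀ hT₀.1).lt_of_ne' hT₀.2) (h2 T₀ hT₀.1)
    have h3 : Gh q F d a (fun f => x f) =
        ((∑ T ∈ F.powerset, q T * (a ^ (d - T.card) * ∏ f ∈ T, x f) : ℝ) : ℂ) := by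
      unfold Gh
      push_cast
      rfl
    rw [h3]
    exact Complex.ofReal_ne_zero.2 h1.ne'
  clear_value d
  refine ⟨d, hd, hpos, fun σ z hσ hz => ?_⟩
  obtain ⟨x, hx⟩ : ∃ x : X → ℝ, ∀ f, x f = (z f).im / (σ.im + 1) := ⟨_, fun _ => rfl⟩
  obtain ⟨y, hy⟩ : ∃ y : X → ℝ, ∀ f, y f = (z f).re - x f * σ.re := ⟨_, fun _ => rfl⟩
  have hx0 : ∀ f ∈ F, 0 < x f := fun f hf => by
    rw [hx]; exact div_pos (hz f hf) (by linarith)
  -- real values of the homogenizing variable
  have hreal : ∀ σ : ℝ, σ ≠ 0 → ∀ u : X → ℂ, (∀ f ∈ F, 0 < (u f).im) → Gh q F d σ u ≠ 0 := by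
    intro σ hσ u hu
    have hσ' : (σ : ℂ) ≠ 0 := by exact_mod_cast hσ
    rw [Gh_eq hd hσ']
    refine mul_ne_zero (pow_ne_zero _ hσ') ?_
    rcases hσ.lt_or_gt with h1 | h1
    · refine hneg _ fun f hf => ?_
      rw [Complex.div_ofReal_im]
      exact div_neg_of_pos_of_neg (hu f hf) h1
    · refine h _ fun f hf => ?_
      rw [Complex.div_ofReal_im]
      exact div_pos (hu f hf) h1
  have htop : ∀ v : X → ℝ, Gh q F d 0 (fun f => x f * Complex.I + v f) ≠ 0 := by
    intro v
    have h1 : ∀ᶠ σ : ℝ in 𝓝[>] 0, ‖Gh q F d 0 fun f => x f‖ * Complex.I.im ^ d ≤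
        ‖Gh q F d (0 * Complex.I + σ) fun f => x f * Complex.I + v f‖ := by
      filter_upwards [self_mem_nhdsWithin] with σ hσ
      refine (isPol_Gh hd 0 σ (fun f => x f) fun f => v f).lower (fun s hs => ?_) (by simp)
      rw [zero_mul, zero_add]
      refine hreal σ (ne_of_gt hσ) _ fun f hf => ?_
      simpa using mul_pos (hx0 f hf) hs
    have h2 : Continuous fun σ : ℝ =>
        ‖Gh q F d (0 * Complex.I + σ) fun f => x f * Complex.I + v f‖ :=
      (continuous_Gh (s := fun σ : ℝ => 0 * Complex.I + σ)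
        (z := fun _ f => x f * Complex.I + v f) (by fun_prop) fun _ => continuous_const).norm
    have h3 := ge_of_tendsto ((h2.tendsto 0).mono_left nhdsWithin_le_nhds) h1
    simp only [Complex.I_im, one_pow, mul_one, zero_mul, Complex.ofReal_zero, add_zero] at h3
    exact norm_pos_iff.1 ((norm_pos_iff.2 (by simpa using hpos 0 x le_rfl hx0)).trans_le h3)
  have hgx : gs q F (fun f => x f) ≠ 0 := by
    have := hpos 1 x zero_le_one hx0
    rw [Complex.ofReal_one, Gh_eq hd one_ne_zero] at this
    simpa using this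
  obtain ⟨η, hη, hball⟩ : ∃ η > 0, ∀ v : X → ℂ, (∀ f ∈ F, ‖v f‖ < η) →
      gs q F (fun f => x f + v f) ≠ 0 := by
    have hc : Continuous fun v : F → ℂ =>
        gs q F fun f => x f + if h : f ∈ F then v ⟨f, h⟩ else 0 := by
      refine continuous_finsetSum _ fun T _ => continuous_const.mul
        (continuous_finsetProd _ fun f _ => continuous_const.add ?_)
      split_ifs
      · exact continuous_apply _
      · exact continuous_const
    obtain ⟨η, hη, hb⟩ := Metric.eventually_nhds_iff.1
      ((hc.continuousAt (x := 0)).eventually_ne (y := 0) (by simpa using hgx))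
    refine ⟨η, hη, fun v hv h0 => hb (y := fun f : F => v f) ?_ ?_⟩
    · rw [dist_zero_right, pi_norm_lt_iff hη]
      exact fun f => hv f f.2
    · refine Eq.trans (Finset.sum_congr rfl fun T hT => ?_) h0
      congr 1
      exact Finset.prod_congr rfl fun f hf => by
        simp only [dif_pos (Finset.mem_powerset.1 hT hf)]
  have key := homotopy (d := d) (hpos 1 x zero_le_one hx0)
    (φ := fun r s => Gh q F d ((1 : ℝ) * s + 0) fun f => x f * s + (x f * Complex.I + r * y f))
    (fun r => isPol_Gh hd _ _ _ _) (continuous_Gh (s := fun p : ℝ × ℂ => (1 : ℝ) * p.2 + 0)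
      (z := fun p f => x f * p.2 + (x f * Complex.I + p.1 * y f)) (by fun_prop)
      fun f => by fun_prop)
    (M := (∑ f ∈ F, (|x f| + |y f|)) / η) (fun r s hs => ?_) (fun r hr s h0 => ?_)
    (fun s hs => ?_) σ hσ
  · simp only [Complex.ofReal_one, one_mul, add_zero] at key
    refine fun h0 => key ?_
    rw [← h0]
    congr 1
    funext f
    have h1 : x f * (σ.im + 1) = (z f).im := by
      rw [hx]; field_simp
    apply Complex.ext
    · simp [hy]
    · simp [← h1, mul_add]
  · by_cases hs0 : s = 0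
    · simpa [hs0] using htop fun f => r * y f
    · have h1 : s = (s.re : ℂ) := Complex.ext rfl (by simpa using hs)
      rw [Complex.ofReal_one, one_mul, add_zero, h1]
      refine hreal _ (fun h2 => hs0 (by rw [h1, h2]; rfl)) _ fun f hf => ?_
      simpa using hx0 f hf
  · by_contra hlt
    rw [not_le, div_lt_iff₀ hη] at hlt
    have hS : 0 ≤ ∑ f ∈ F, (|x f| + |y f|) := Finset.sum_nonneg fun _ _ => by positivity
    have hs0 : s ≠ 0 := by
      rintro rfl
      rw [norm_zero, zero_mul] at hlt
      linarith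
    rw [Complex.ofReal_one, one_mul, add_zero, Gh_eq hd hs0] at h0
    refine hball (fun f => (x f * Complex.I + r * y f) / s) (fun f hf => ?_) ?_
    · rw [norm_div, div_lt_iff₀ (norm_pos_iff.2 hs0), mul_comm η]
      refine lt_of_le_of_lt ?_ hlt
      refine le_trans ?_ (Finset.single_le_sum (f := fun f => |x f| + |y f|)
        (fun _ _ => by positivity) hf)
      refine (norm_add_le _ _).trans (add_le_add (by simp) ?_)
      rw [norm_mul, Complex.norm_real, Complex.norm_real, Real.norm_eq_abs, Real.norm_eq_abs,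
        abs_of_nonneg hr.1]
      exact mul_le_of_le_one_left (abs_nonneg _) hr.2
    · rw [← (mul_eq_zero.1 h0).resolve_left (pow_ne_zero _ hs0)]
      congr 1
      funext f
      field_simp
  · have hs0 : s ≠ 0 := by
      rintro rfl
      simp at hs
    rw [Complex.ofReal_one, one_mul, add_zero, Gh_eq hd hs0]
    refine mul_ne_zero (pow_ne_zero _ hs0) ?_
    have h1 : (fun f => ((x f : ℂ) * s + (x f * Complex.I + (0 : ℝ) * y f)) / s) =
        fun f => (x f : ℂ) * (1 + Complex.I / s) := by
      funext f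
      rw [Complex.ofReal_zero]
      field_simp
      ring
    rw [h1]
    have hn : 0 < Complex.normSq s := Complex.normSq_pos.2 hs0
    rcases lt_trichotomy (Complex.I / s).im 0 with h2 | h2 | h2
    · exact hneg _ fun f hf => by simpa using mul_neg_of_pos_of_neg (hx0 f hf) h2
    · have h3 : 0 < (Complex.I / s).re := by
        rw [Complex.div_re]
        simpa using div_pos hs hn
      have h4 := hpos 1 (fun f => x f * (1 + (Complex.I / s).re)) zero_le_one
        fun f hf => mul_pos (hx0 f hf) (by linarith)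
      rw [Complex.ofReal_one, Gh_eq hd one_ne_zero] at h4
      have h5 : Complex.I / s = ((Complex.I / s).re : ℂ) := Complex.ext rfl (by simpa using h2)
      rw [h5]
      simpa using h4
    · exact h _ fun f hf => by simpa using mul_pos (hx0 f hf) h2

/-- functions that map the upper half-plane to itself are monotone on the real line -/
theorem pick_mono {g : ℂ → ℂ} (hd : ∀ x ∈ Icc (0 : ℝ) 1, DifferentiableAt ℂ g x)
    (hre : ∀ x ∈ Icc (0 : ℝ) 1, (g x).im = 0) (him : ∀ s : ℂ, 0 < s.im → 0 ≤ (g s).im) :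
    (g 0).re ≤ (g 1).re := by
  have h1 : ∀ x ∈ Icc (0 : ℝ) 1, HasDerivAt (fun x : ℝ => (g x).re) (deriv g x).re x :=
    fun x hx => (hd x hx).hasDerivAt.real_of_complex
  have h2 : ∀ x ∈ Icc (0 : ℝ) 1, 0 ≤ (deriv g x).re := by
    intro x hx
    have h3 : HasDerivAt (fun s : ℂ => -Complex.I * g (x + Complex.I * s)) (deriv g x) (0 : ℝ) := by
      have h4 : HasDerivAt (fun s : ℂ => (x : ℂ) + Complex.I * s) Complex.I (0 : ℝ) := by
        simpa using ((hasDerivAt_id ((0 : ℝ) : ℂ)).const_mul Complex.I).const_add (x : ℂ)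
      have h5 : HasDerivAt g (deriv g x) ((x : ℂ) + Complex.I * (0 : ℝ)) := by
        simpa using (hd x hx).hasDerivAt
      have h6 := (h5.comp ((0 : ℝ) : ℂ) h4).const_mul (-Complex.I)
      have h7 : -Complex.I * (deriv g x * Complex.I) = deriv g x := by
        linear_combination (-deriv g x) * Complex.I_mul_I
      rwa [h7] at h6
    have h4 := h3.real_of_complex
    have h5 := hasDerivAt_iff_tendsto_slope_zero.1 h4
    have h6 : 𝓝[>] (0 : ℝ) ≤ 𝓝[≠] 0 := nhdsWithin_mono _ fun t ht => ne_of_gt ht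
    refine ge_of_tendsto (h5.mono_left h6) ?_
    filter_upwards [self_mem_nhdsWithin] with t ht
    have h7 := him (x + Complex.I * t) (by simpa using ht)
    have h8 := hre x hx
    simp only [zero_add, neg_mul, Complex.neg_re, Complex.mul_re, Complex.I_re, zero_mul,
      Complex.I_im, one_mul, zero_sub, neg_neg, Complex.ofReal_zero, mul_zero, add_zero, h8,
      sub_zero, smul_eq_mul, neg_zero]
    exact mul_nonneg (inv_nonneg.2 (le_of_lt ht)) h7
  have h3 : MonotoneOn (fun x : ℝ => (g x).re) (Icc 0 1) :=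
    monotoneOn_of_deriv_nonneg (convex_Icc 0 1)
      (fun x hx => (h1 x hx).continuousAt.continuousWithinAt)
      (fun x hx => (h1 x (interior_subset hx)).differentiableAt.differentiableWithinAt)
      fun x hx => by rw [(h1 x (interior_subset hx)).deriv]; exact h2 x (interior_subset hx)
  simpa using h3 (left_mem_Icc.2 zero_le_one) (right_mem_Icc.2 zero_le_one) zero_le_one

variable [DecidableEq X]

/-- the part of the weight where `e` is present -/
def qin (q : Finset X → ℝ) (e : X) (T : Finset X) : ℝ := if e ∈ T then q T else 0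

/-- the part of the weight where `e` is absent -/
def qout (q : Finset X → ℝ) (e : X) (T : Finset X) : ℝ := if e ∈ T then 0 else q T

theorem Gh_split (q : Finset X → ℝ) (F : Finset X) (d : ℕ) (e : X) (σ : ℂ) (z : X → ℂ) (t : ℂ) :
    Gh q F d σ (Function.update z e t) =
      Gh (qout q e) F d σ z + t * Gh (qin q e) F d σ (Function.update z e 1) := by
  unfold Gh
  rw [Finset.mul_sum, ← Finset.sum_add_distrib]
  refine Finset.sum_congr rfl fun T _ => ?_
  unfold qin qout
  by_cases he : e ∈ T
  · rw [if_pos he, if_pos he, Finset.prod_update_of_mem he, Finset.prod_update_of_mem he]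
    push_cast
    ring
  · rw [if_neg he, if_neg he, Finset.prod_update_of_notMem he]
    push_cast
    ring

theorem Gh_qin (q : Finset X → ℝ) (F : Finset X) (d : ℕ) (e : X) (σ : ℂ) (z : X → ℂ) :
    Gh (qin q e) F d σ z = z e * Gh (qin q e) F d σ (Function.update z e 1) := by
  unfold Gh
  rw [Finset.mul_sum]
  refine Finset.sum_congr rfl fun T _ => ?_
  unfold qin
  by_cases he : e ∈ T
  · rw [if_pos he, Finset.prod_update_of_mem he, ← Finset.mul_prod_erase T z he,
      Finset.sdiff_singleton_eq_erase]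
    ring
  · simp [he]

omit [DecidableEq X] in
theorem im_mul_conj_nonneg {A B : ℂ} (h : ∀ t : ℂ, 0 < t.im → B + t * A ≠ 0) :
    0 ≤ (B * (starRingEnd ℂ) A).im := by
  by_contra hlt
  rw [not_le] at hlt
  have hA : A ≠ 0 := by
    rintro rfl
    simp at hlt
  have hn : 0 < Complex.normSq A := Complex.normSq_pos.2 hA
  refine h (-(B / A)) ?_ (by field_simp; ring)
  rw [Complex.neg_im, Complex.div_im, ← sub_div, ← neg_div]
  refine div_pos ?_ hn
  simp only [Complex.mul_im, Complex.conj_re, Complex.conj_im] at hlt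
  linarith

omit [DecidableEq X] in
theorem Gh_ofReal (q : Finset X → ℝ) (F : Finset X) (d : ℕ) (a : ℝ) (x : X → ℝ) :
    (Gh q F d a fun f => x f).im = 0 := by
  have h3 : Gh q F d a (fun f => x f) =
      ((∑ T ∈ F.powerset, q T * (a ^ (d - T.card) * ∏ f ∈ T, x f) : ℝ) : ℂ) := by
    unfold Gh
    push_cast
    rfl
  rw [h3, Complex.ofReal_im]

theorem upr_eq_Gh {q : Finset X → ℝ} {F : Finset X} {d : ℕ}
    (hd : ∀ T ∈ F.powerset, q T ≠ 0 → T.card ≤ d) (e : X) {a : ℝ} (ha : a ≠ 0) (x : X → ℝ) :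
    ((upr F.powerset q (fun f => x f / a) e : ℝ) : ℂ) =
      Gh (qin q e) F d a (fun f => x f) / Gh q F d a fun f => x f := by
  have ha' : (a : ℂ) ≠ 0 := by exact_mod_cast ha
  have hd' : ∀ T ∈ F.powerset, qin q e T ≠ 0 → T.card ≤ d := fun T hT h0 => hd T hT fun h1 => by
    simp [qin, h1] at h0
  rw [Gh_eq hd ha', Gh_eq hd' ha', mul_div_mul_left _ _ (pow_ne_zero _ ha')]
  unfold upr gs qin
  rw [Finset.sum_filter]
  push_cast
  congr 1
  refine Finset.sum_congr rfl fun T _ => ?_
  split_ifs <;> simp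

omit [DecidableEq X] in
theorem differentiable_Gh (q : Finset X → ℝ) (F : Finset X) (d : ℕ) (a b : ℂ) (x y : X → ℂ) :
    Differentiable ℂ fun s => Gh q F d (a + s * b) fun f => x f + s * y f := by
  unfold Gh
  refine Differentiable.fun_sum fun T _ => (differentiable_const _).mul ?_
  exact Differentiable.mul (by fun_prop) (Differentiable.fun_finsetProd fun f _ => by fun_prop)

/-- comparison of tilted marginals: negative dependence, and monotonicity under a uniform tilt -/
theorem upr_cmp {q : Finset X → ℝ} {F : Finset X} (hq : ∀ T ∈ F.powerset, 0 ≤ q T)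
    (h : ∀ z : X → ℂ, (∀ f ∈ F, 0 < (z f).im) → gs q F z ≠ 0) (e : X)
    {w w' : X → ℝ} {σ σ' : ℝ} (hσ : 0 < σ) (hσσ : σ ≤ σ') (hw : ∀ f, 0 < w f)
    (hww : ∀ f ∈ F, w f ≤ w' f) (hwe : w' e = w e) :
    upr F.powerset q (fun f => w' f / σ') e ≤ upr F.powerset q (fun f => w f / σ) e := by
  obtain ⟨d, hd, hpos, hst⟩ := Gh_stable hq h
  have hcl : ∀ (τ : ℂ) (z : X → ℂ), 0 ≤ τ.im → (∀ f ∈ F, 0 ≤ (z f).im) →
      0 ≤ (Gh (qout q e) F d τ z *
        (starRingEnd ℂ) (Gh (qin q e) F d τ (Function.update z e 1))).im := by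
    intro τ z hτ hz
    have hc : Continuous fun ε : ℝ => (Gh (qout q e) F d (τ + ε * Complex.I)
        (fun f => z f + ε * Complex.I) * (starRingEnd ℂ) (Gh (qin q e) F d (τ + ε * Complex.I)
          (Function.update (fun f => z f + ε * Complex.I) e 1))).im := by
      refine Complex.continuous_im.comp (Continuous.mul ?_ (Complex.continuous_conj.comp ?_))
      · exact continuous_Gh (by fun_prop) fun f => by fun_prop
      · refine continuous_Gh (by fun_prop) fun f => ?_
        by_cases hf : f = e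
        · simp only [hf, Function.update_self]
          exact continuous_const
        · simp only [Function.update_of_ne hf]
          fun_prop
    have h1 := ge_of_tendsto (b := 0) ((hc.tendsto 0).mono_left (nhdsWithin_le_nhds (s := Ioi 0)))
      (by
        filter_upwards [self_mem_nhdsWithin] with ε hε
        have hε' : 0 < ε := hε
        refine im_mul_conj_nonneg fun t ht => ?_
        rw [← Gh_split]
        refine hst _ _ (by simpa using add_pos_of_nonneg_of_pos hτ hε') fun f hf => ?_
        by_cases hfe : f = e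
        · rw [hfe, Function.update_self]; exact ht
        · rw [Function.update_of_ne hfe]
          simpa using add_pos_of_nonneg_of_pos (hz f hf) hε')
    simpa using h1
  have hcast : ∀ (r : Finset X → ℝ) (x : ℝ), Gh r F d (σ + x * ((σ' - σ : ℝ) : ℂ))
      (fun f => w f + x * ((w' f - w f : ℝ) : ℂ)) =
      Gh r F d ((σ + x * (σ' - σ) : ℝ) : ℂ) fun f => ((w f + x * (w' f - w f) : ℝ) : ℂ) := by
    intro r x
    push_cast
    rfl
  have key := pick_mono (g := fun s => -(Gh (qin q e) F d (σ + s * ((σ' - σ : ℝ) : ℂ))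
      (fun f => w f + s * ((w' f - w f : ℝ) : ℂ)) / Gh q F d (σ + s * ((σ' - σ : ℝ) : ℂ))
      (fun f => w f + s * ((w' f - w f : ℝ) : ℂ)))) (fun x hx => ?_) (fun x _ => ?_) fun s hs => ?_
  · have h0 := upr_eq_Gh hd e hσ.ne' w
    have h1 := upr_eq_Gh hd e (hσ.trans_le hσσ).ne' w'
    simp only [zero_mul, add_zero, one_mul, Complex.ofReal_sub, add_sub_cancel] at key
    rw [← h0, ← h1] at key
    simpa using key
  · refine DifferentiableAt.neg (DifferentiableAt.div (differentiable_Gh _ _ _ _ _ _ _ _)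
      (differentiable_Gh _ _ _ _ _ _ _ _) ?_)
    rw [hcast]
    refine hpos _ _ (by nlinarith [hx.1]) fun f hf => ?_
    nlinarith [hx.1, hw f, hww f hf]
  · rw [hcast, hcast, Complex.neg_im, Complex.div_im, Gh_ofReal, Gh_ofReal]
    simp
  · set τ : ℂ := σ + s * ((σ' - σ : ℝ) : ℂ) with hτ
    set z : X → ℂ := fun f => w f + s * ((w' f - w f : ℝ) : ℂ) with hz
    have h1 := hcl τ z (by simpa [hτ] using mul_nonneg hs.le (sub_nonneg.2 hσσ))
      fun f hf => by simpa [hz] using mul_nonneg hs.le (sub_nonneg.2 (hww f hf))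
    have hze : z e = w e := by simp [hz, hwe]
    have h2 := Gh_split q F d e τ z (z e)
    rw [Function.update_eq_self] at h2
    rw [h2, Gh_qin, hze]
    generalize Gh (qout q e) F d τ z = M at h1 ⊢
    generalize Gh (qin q e) F d τ (Function.update z e 1) = N at h1 ⊢
    rw [Complex.neg_im, Complex.div_im, ← sub_div, ← neg_div]
    refine div_nonneg ?_ (Complex.normSq_nonneg _)
    simp only [Complex.mul_im, Complex.conj_re, Complex.conj_im, Complex.mul_re, Complex.add_re,
      Complex.add_im, Complex.ofReal_re, Complex.ofReal_im] at h1 ⊢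
    nlinarith [mul_nonneg (hw e).le h1]

end Vale.Agent.N143X
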