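import Vale.Agent.N143X.Dpp

/-!
Weak convergence of invariant strongly Rayleigh measures to independent fair coins does not imply
convergence in probability under equivariant couplings.
-/

namespace Vale.Agent.N143X

open Filter Topology MeasureTheory Vale.Agent.N143 Vale.Agent.P143 unitInterval
open scoped ENNReal ComplexOrder

/-- a fair coin -/
noncomputable def fair : Measure Bool :=
  (2⁻¹ : ℝ≥0∞) • Measure.dirac true + (2⁻¹ : ℝ≥0∞) • Measure.dirac false

theorem prob_fair : IsProbabilityMeasure fair := ⟨by simp [fair, ENNReal.inv_two_add_inv_two]⟩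

/-- independent fair coins -/
noncomputable def coins (ι : Type*) : Measure (ι → Bool) := Measure.infinitePi fun _ => fair

theorem prob_coins (ι : Type*) : IsProbabilityMeasure (coins ι) := by
  have := prob_fair
  unfold coins
  infer_instance

theorem integral_fair {𝕜 : Type*} [RCLike 𝕜] (f : Bool → 𝕜) :
    ∫ b, f b ∂fair = (f true + f false) / 2 := by
  have := prob_fair
  rw [integral_fintype .of_finite, Fintype.sum_bool]
  have h1 : ∀ b : Bool, fair.real {b} = 2⁻¹ := fun b => by
    cases b <;> simp [fair, measureReal_def]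
  rw [h1, h1, RCLike.real_smul_eq_coe_mul, RCLike.real_smul_eq_coe_mul]
  push_cast
  ring

theorem integral_coins {𝕜 ι κ : Type*} [RCLike 𝕜] (S : Finset κ) {j : κ → ι}
    (hj : Set.InjOn j S) (ψ : κ → Bool → 𝕜) :
    ∫ B, ∏ p ∈ S, ψ p (B (j p)) ∂coins ι = ∏ p ∈ S, (ψ p true + ψ p false) / 2 := by
  have := prob_fair
  have h1 : (coins ι).map (fun B (p : S) => B (j p)) = Measure.pi fun _ : S => fair := by
    rw [← Measure.infinitePi_eq_pi]
    exact Measure.map_infinitePi_infinitePi_of_inj (f := fun p : S => j p)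
      fun p q h => Subtype.ext (hj p.2 q.2 h)
  have h2 := integral_fintype_prod_eq_prod (μ := fun _ : S => fair) fun p : S => ψ p
  have hm : Measurable fun (B : ι → Bool) (p : S) => B (j p) :=
    measurable_pi_iff.2 fun p => measurable_pi_apply _
  rw [← h1, integral_map hm.aemeasurable (measurable_of_finite _).aestronglyMeasurable] at h2
  simp only [integral_fair] at h2
  rw [← Finset.prod_coe_sort S fun p => (ψ p true + ψ p false) / 2, ← h2]
  exact integral_congr_ae (Eventually.of_forall fun B =>
    (Finset.prod_coe_sort S fun p => ψ p (B (j p))).symm)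

theorem real_cyl {ι κ : Type*} (S : Finset κ) {j : κ → ι} (hj : Set.InjOn j S) (c : κ → Bool) :
    (coins ι).real {B | ∀ p ∈ S, B (j p) = c p} = 2⁻¹ ^ S.card := by
  have h0 : MeasurableSet {B : ι → Bool | ∀ p ∈ S, B (j p) = c p} := by
    have : {B : ι → Bool | ∀ p ∈ S, B (j p) = c p} =
        ⋂ p ∈ S, (fun B : ι → Bool => B (j p)) ⁻¹' {c p} := by
      ext B
      simp
    rw [this]
    exact Finset.measurableSet_biInter _ fun p _ =>
      measurable_pi_apply _ (measurableSet_singleton _)
  have h1 := integral_coins S hj fun p b => if b = c p then (1 : ℝ) else 0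
  have h2 : ∀ p ∈ S, ((if true = c p then (1 : ℝ) else 0) + if false = c p then 1 else 0) / 2 =
      2⁻¹ := fun p _ => by cases c p <;> simp
  rw [Finset.prod_congr rfl h2, Finset.prod_const] at h1
  rw [← h1, ← integral_indicator_one h0]
  congr 1
  funext B
  rw [Finset.prod_boole, Set.indicator_apply]
  simp

theorem dpp_coins (ι : Type*) [DecidableEq ι] :
    IsDPP ((2⁻¹ : ℂ) • (1 : Matrix ι ι ℂ)) (coins ι) := by
  have h1 : ((2⁻¹ : ℂ) • (1 : Matrix ι ι ℂ)).PosSemidef :=
    Matrix.PosSemidef.one.smul (by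
      rw [show (2⁻¹ : ℂ) = ((2⁻¹ : ℝ) : ℂ) by push_cast; rfl]
      exact Complex.zero_le_real.2 (by norm_num))
  have h2 : 1 - (2⁻¹ : ℂ) • (1 : Matrix ι ι ℂ) = (2⁻¹ : ℂ) • (1 : Matrix ι ι ℂ) := by
    rw [sub_eq_iff_eq_add, ← add_smul]
    norm_num
  refine ⟨h1, h2.symm ▸ h1, prob_coins ι, fun A => ?_⟩
  have h3 := real_cyl A (j := id) (Set.injOn_id _) fun _ => true
  simp only [id] at h3
  have h4 : (Matrix.of fun x y : A => ((2⁻¹ : ℂ) • (1 : Matrix ι ι ℂ)) x y) =
      Matrix.diagonal fun _ => 2⁻¹ := by
    ext x y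
    by_cases h : x = y
    · simp [h]
    · simp [h, Matrix.one_apply]
  rw [h3, h4, Matrix.det_diagonal]
  simp

variable {Γ : Type*} [Group Γ]

/-- the coin that is read at a point -/
def src (g : Γ) (p : Γ × Bool) : Γ := if p.2 then p.1 * g⁻¹ else p.1

/-- the points `(x, false)` and `(x g, true)` get opposite states -/
def pairing (g : Γ) (B : Γ → Bool) (p : Γ × Bool) : Bool := xor p.2 (B (src g p))

theorem measurable_pairing (g : Γ) : Measurable (pairing g) :=
  measurable_pi_iff.2 fun p =>
    (measurable_of_finite (xor p.2)).comp (measurable_pi_apply (src g p))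

theorem prob_pairing (g : Γ) : IsProbabilityMeasure ((coins Γ).map (pairing g)) :=
  have := prob_coins Γ
  Measure.isProbabilityMeasure_map (measurable_pairing g).aemeasurable

theorem pairing_stronglyRayleigh (g : Γ) : IsStronglyRayleigh ((coins Γ).map (pairing g)) := by
  classical
  refine ⟨prob_pairing g, fun F z hz => ?_⟩
  set u : Γ × Bool → ℂ := fun p => if p ∈ F then z p else 1 with hu
  have h1 : ∀ B : Γ → Bool, ∏ p ∈ F, (if pairing g B p = true then z p else 1) =
      ∏ x ∈ F.image (src g), (if B x = true then u (x, false) else u (x * g, true)) := by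
    intro B
    rw [← Finset.prod_fiberwise_of_maps_to fun p hp => Finset.mem_image_of_mem (src g) hp]
    refine Finset.prod_congr rfl fun x _ => ?_
    have h2 : F.filter (fun p => src g p = x) = ({(x, false), (x * g, true)} : Finset _) ∩ F := by
      ext ⟨y, b⟩
      rw [Finset.mem_filter]
      cases b <;> simp [src, and_comm, mul_inv_eq_iff_eq_mul]
    rw [h2, ← Finset.filter_mem_eq_inter, Finset.prod_filter, Finset.prod_pair (by simp)]
    cases hB : B x <;> simp [pairing, src, hB, hu]
  have hm : Measurable fun ω : Γ × Bool → Bool => ∏ p ∈ F, (if ω p = true then z p else 1) :=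
    Finset.measurable_prod _ fun p _ => (measurable_of_finite
      fun b : Bool => if b = true then z p else 1).comp (measurable_pi_apply p)
  unfold genPoly
  rw [integral_map (measurable_pairing g).aemeasurable hm.aestronglyMeasurable]
  simp only [h1]
  have h3 := integral_coins (F.image (src g)) (j := id) (Set.injOn_id _)
    fun x b => if b = true then u (x, false) else u (x * g, true)
  simp only [id] at h3
  rw [h3]
  refine Finset.prod_ne_zero_iff.2 fun x _ => div_ne_zero ?_ two_ne_zero
  have h4 : ∀ p, 0 < (u p).im ∨ u p = 1 := fun p => by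
    by_cases hp : p ∈ F
    · exact Or.inl (by simpa [hu, hp] using hz p hp)
    · exact Or.inr (if_neg hp)
  intro h0
  have h5 := congrArg Complex.im h0
  simp only [if_true, Bool.false_eq_true, if_false, Complex.add_im, Complex.zero_im] at h0 h5
  rcases h4 (x, false) with h6 | h6 <;> rcases h4 (x * g, true) with h7 | h7
  · linarith
  · rw [h7, Complex.one_im] at h5; linarith
  · rw [h6, Complex.one_im] at h5; linarith
  · rw [h6, h7] at h0; norm_num at h0

theorem coins_inv : IsInv (fun (γ : Γ) (p : Γ × Bool) => (γ * p.1, p.2)) (coins (Γ × Bool)) := by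
  have := prob_fair
  intro γ
  exact Measure.map_infinitePi_infinitePi_of_inj (f := fun p : Γ × Bool => (γ * p.1, p.2))
    fun p q h => by
      rw [Prod.mk.injEq, mul_right_inj] at h
      exact Prod.ext h.1 h.2

theorem pairing_inv (g : Γ) :
    IsInv (fun (γ : Γ) (p : Γ × Bool) => (γ * p.1, p.2)) ((coins Γ).map (pairing g)) := by
  have := prob_fair
  intro γ
  have h1 : (coins Γ).map (fun B x => B (γ * x)) = coins Γ :=
    Measure.map_infinitePi_infinitePi_of_inj (mul_right_injective γ)
  conv_rhs => rw [← h1]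
  rw [Measure.map_map (by fun_prop) (measurable_pairing g),
    Measure.map_map (measurable_pairing g) (by fun_prop)]
  congr 1
  funext B ⟨x, b⟩
  cases b <;> simp [pairing, src, mul_assoc]

theorem pairing_weak [Countable Γ] {g : ℕ → Γ} (hg : Function.Injective g) :
    WeakLimit (fun n => (coins Γ).map (pairing (g n))) (coins (Γ × Bool)) := by
  classical
  have := prob_coins (Γ × Bool)
  have := fun n => prob_pairing (g n)
  refine weak_of_cylinder _ _ fun S B _ => tendsto_const_nhds.congr' ?_
  have h1 : ∀ᶠ n in atTop, ∀ p ∈ S, ∀ q ∈ S, g n ≠ p.1⁻¹ * q.1 := by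
    refine (eventually_all_finset S).2 fun p _ => (eventually_all_finset S).2 fun q _ => ?_
    rw [← Nat.cofinite_eq_atTop]
    exact hg.tendsto_cofinite.eventually (eventually_cofinite_ne _)
  filter_upwards [h1] with n hn
  have h2 : Set.InjOn (src (g n)) S := by
    rintro ⟨x, b⟩ hp ⟨y, c⟩ hq h
    cases b <;> cases c
    · simpa [src] using h
    · exact absurd (by simp only [src] at h; simp [show x = y * (g n)⁻¹ by simpa using h])
        (hn _ hp _ hq)
    · exact absurd (by simp only [src] at h; simp [show y = x * (g n)⁻¹ by simpa using h.symm])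
        (hn _ hq _ hp)
    · simpa [src] using h
  have h3 := real_cyl S (j := id) (Set.injOn_id _) fun p => decide (p ∈ B)
  have h4 := real_cyl S h2 fun p => xor p.2 (decide (p ∈ B))
  rw [map_measureReal_apply (measurable_pairing _) (measurableSet_cyl' S B)]
  refine Eq.trans ?_ ((h3.trans h4.symm).trans ?_)
  · congr 1
    ext ω
    refine forall₂_congr fun p _ => ?_
    by_cases hp : p ∈ B <;> simp [hp]
  · congr 1
    ext ω
    refine forall₂_congr fun p _ => ?_
    unfold pairing
    by_cases hp : p ∈ B <;> cases p.2 <;> simp [hp]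

theorem not_jointLimit (g : ℕ → Γ) : ¬ JointLimit (fun (γ : Γ) (p : Γ × Bool) => (γ * p.1, p.2))
    (fun n => (coins Γ).map (pairing (g n))) (coins (Γ × Bool)) := by
  classical
  rintro ⟨Ψ, Ψ₀, h, h₀, hlim⟩
  have hp : IsProbabilityMeasure (iidLabels Γ) := by unfold iidLabels; infer_instance
  have key : ∀ n, (4⁻¹ : ℝ≥0∞) ≤ iidLabels Γ {U | Ψ n U (1, false) ≠ Ψ₀ U (1, false)} +
      iidLabels Γ {U | Ψ n U (1, true) ≠ Ψ₀ U (1, true)} := by
    intro n
    set A : Finset (Γ × Bool) := {(1, false), (g n, true)} with hA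
    have hm := H536.measurableSet_incl A
    have h1 : iidLabels Γ (Ψ₀ ⁻¹' {ω | ∀ x ∈ A, ω x = true}) = 4⁻¹ := by
      have := prob_coins (Γ × Bool)
      have h2 := real_cyl A (j := id) (Set.injOn_id _) fun _ => true
      rw [hA, Finset.card_pair (by simp), ← hA] at h2
      rw [← Measure.map_apply h₀.1 hm, h₀.2.2, ← ofReal_measureReal]
      refine (congrArg ENNReal.ofReal h2).trans ?_
      rw [show (2⁻¹ : ℝ) ^ 2 = 4⁻¹ by norm_num, ENNReal.ofReal_inv_of_pos (by norm_num)]
      simp
    have h2 : iidLabels Γ (Ψ n ⁻¹' {ω | ∀ x ∈ A, ω x = true}) = 0 := by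
      rw [← Measure.map_apply (h n).1 hm, (h n).2.2, Measure.map_apply (measurable_pairing _) hm]
      refine measure_mono_null (fun B hB => ?_) measure_empty
      have h3 := hB (1, false) (by simp [hA])
      have h4 := hB (g n, true) (by simp [hA])
      simp [pairing, src] at h3 h4
      simp [h3] at h4
    have h3 : iidLabels Γ {U | Ψ n U (g n, true) ≠ Ψ₀ U (g n, true)} =
        iidLabels Γ {U | Ψ n U (1, true) ≠ Ψ₀ U (1, true)} := by
      have h4 : (iidLabels Γ).map (fun U v => U (g n * v)) = iidLabels Γ :=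
        Measure.map_infinitePi_infinitePi_of_inj (mul_right_injective (g n))
      have h5 : MeasurableSet {U | Ψ n U (1, true) ≠ Ψ₀ U (1, true)} :=
        (measurableSet_eq_fun ((measurable_pi_apply _).comp (h n).1)
          ((measurable_pi_apply _).comp h₀.1)).compl
      conv_rhs => rw [← h4]
      rw [Measure.map_apply (by fun_prop) h5]
      congr 1
      ext U
      have h6 := (h n).2.1 (g n)⁻¹ U (1, true)
      have h7 := h₀.2.1 (g n)⁻¹ U (1, true)
      simp only [inv_inv, mul_one] at h6 h7
      simp only [Set.mem_preimage, Set.mem_ofPred_eq, h6, h7]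
    rw [← h1, ← h3, ← zero_add (_ + _), ← h2]
    refine le_trans (measure_mono fun U hU => ?_)
      ((measure_union_le _ _).trans (add_le_add le_rfl (measure_union_le _ _)))
    by_contra hcon
    simp only [Set.mem_union, Set.mem_preimage, Set.mem_ofPred_eq, not_or, not_not] at hcon hU
    refine hcon.1 fun x hx => ?_
    rcases Finset.mem_insert.1 hx with rfl | hx'
    · rw [hcon.2.1]; exact hU _ hx
    · rw [Finset.mem_singleton.1 hx', hcon.2.2]; exact hU _ (by simp [hA])
  have h1 := ge_of_tendsto' ((hlim (1, false)).add (hlim (1, true))) key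
  simp at h1

theorem sharp (Γ : Type*) [Group Γ] [Countable Γ] [Infinite Γ] [DecidableEq Γ] :
    ∃ (Q : Matrix (Γ × Bool) (Γ × Bool) ℂ) (μ : Measure (Γ × Bool → Bool))
      (ν : ℕ → Measure (Γ × Bool → Bool)), IsDPP Q μ ∧ IsInv (fun (γ : Γ) (p : Γ × Bool) => (γ * p.1, p.2)) μ ∧
      (∀ n, IsStronglyRayleigh (ν n) ∧ IsInv (fun (γ : Γ) (p : Γ × Bool) => (γ * p.1, p.2)) (ν n)) ∧
      WeakLimit ν μ ∧ ¬ JointLimit (fun (γ : Γ) (p : Γ × Bool) => (γ * p.1, p.2)) ν μ :=
  ⟨_, _, _, dpp_coins _, coins_inv, fun _ => ⟨pairing_stronglyRayleigh _, pairing_inv _⟩,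
    pairing_weak (Infinite.natEmbedding Γ).injective, not_jointLimit _⟩

end Vale.Agent.N143X
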